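import Mathlib

/-!
# P097F.T: descent lines `g (p s) = exp (-κ s) * g y`, length-area, typical translates
-/

set_option linter.all false

noncomputable section

namespace Vale.Agent.P097F.T

open Filter Topology Set Metric MeasureTheory Complex
open scoped ENNReal

/-- the lower half plane -/
def LH : Set ℂ := {y | y.im < 0}

/-- a box below the real line -/
def Bx (N T : ℝ) : Set ℂ := {y | |y.re| < N ∧ -T < y.im ∧ y.im < 0}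

/-- a rectangle round the segment `[0, τ]` -/
def Nb (τ ρ : ℝ) : Set ℂ := {z | -ρ < z.re ∧ z.re < τ + ρ ∧ |z.im| < ρ}

/-- a descent line on `[0, τ]` -/
structure Tr (g : ℂ → ℂ) (Ω : Set ℂ) (κ y : ℂ) (p : ℝ → ℂ) (τ : ℝ) : Prop where
  cont : ContinuousOn p (Icc 0 τ)
  zero : p 0 = y
  mem : ∀ s ∈ Icc 0 τ, p s ∈ Ω
  reg : ∀ s ∈ Icc 0 τ, deriv g (p s) ≠ 0
  val : ∀ s ∈ Icc 0 τ, g (p s) = cexp (-(κ * s)) * g y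

/-- the domain of the flow -/
def Dom (g : ℂ → ℂ) (Ω : Set ℂ) (κ : ℂ) : Set (ℝ × ℂ) :=
  {q | 0 < q.1 ∧ g q.2 ≠ 0 ∧ ∃ p, Tr g Ω κ q.2 p q.1}

open Classical in
/-- the flow -/
def Fl (g : ℂ → ℂ) (Ω : Set ℂ) (κ : ℂ) (q : ℝ × ℂ) : ℂ :=
  if h : ∃ p, Tr g Ω κ q.2 p q.1 then h.choose q.1 else q.2

def wt (y : ℂ) : ℝ := (1 + |y.im|) ^ (-(4 / 3 : ℝ))

/-- the density of the energy -/
def en (g : ℂ → ℂ) (Ω : Set ℂ) (κ : ℂ) : ℝ × ℂ → ℝ≥0∞ :=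
  (Dom g Ω κ).indicator fun q => ENNReal.ofReal
    (Real.exp (-q.1 / 2) * (‖g (Fl g Ω κ q) / deriv g (Fl g Ω κ q)‖ ^ 2 * wt (Fl g Ω κ q)))

/-- the energy of the descent line from `y` -/
def En (g : ℂ → ℂ) (Ω : Set ℂ) (κ y : ℂ) : ℝ≥0∞ := ∫⁻ s, en g Ω κ (s, y)

def mu (g : ℂ → ℂ) (y : ℂ) : ℝ≥0∞ := ENNReal.ofReal (‖deriv g y / g y‖ ^ 2)

def Lam (g : ℂ → ℂ) (Ω : Set ℂ) (κ : ℂ) (a : ℝ) : ℝ≥0∞ :=
  ∫⁻ y, ENNReal.ofReal (Real.exp (-|y.re - a|)) * (mu g y * En g Ω κ y)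

/-- the Chebyshev condition on a window -/
def Typ (g : ℂ → ℂ) (κ : ℂ) (N T M : ℝ) : Prop := Lam g (Bx N T) κ 0 ≤ ENNReal.ofReal M

def FinE (g : ℂ → ℂ) (κ : ℂ) : Prop := ∀ᵐ y : ℂ, En g LH κ y < ⊤

/-- the descent line from `y` stays at depth at least `τ₀` -/
def Sh (g : ℂ → ℂ) (κ : ℂ) (τ₀ : ℝ) (y : ℂ) : Prop :=
  ∀ p τ, 0 ≤ τ → Tr g LH κ y p τ → (p τ).im ≤ -τ₀

/-- the descent line from `y` is infinite, regular and has finite length for `|g| |dy|` -/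
def Good (g : ℂ → ℂ) (κ y : ℂ) : Prop := ∃ p : ℝ → ℂ, (∀ τ, Tr g LH κ y p τ) ∧
  IntegrableOn (fun s => ‖g (p s) ^ 2 / deriv g (p s)‖) (Ioi 0)

/-! ## Rows -/

/-- uniqueness of lifts -/
def S_UNIQ : Prop := ∀ (h : ℂ → ℂ) (Ω : Set ℂ) (p q : ℝ → ℂ) (S : Set ℝ), IsOpen Ω →
  DifferentiableOn ℂ h Ω → IsPreconnected S → ContinuousOn p S → ContinuousOn q S →
  (∀ s ∈ S, p s ∈ Ω ∧ deriv h (p s) ≠ 0 ∧ h (p s) = h (q s)) → (∃ s ∈ S, p s = q s) → EqOn p q S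

/-- a descent line extends to complex times -/
def S_TUBE : Prop := ∀ (g : ℂ → ℂ) (Ω : Set ℂ) (κ y : ℂ) (p : ℝ → ℂ) (τ : ℝ), IsOpen Ω →
  DifferentiableOn ℂ g Ω → 0 ≤ τ → Tr g Ω κ y p τ → ∃ (ρ : ℝ) (Ψ : ℂ → ℂ), 0 < ρ ∧
    DifferentiableOn ℂ Ψ (Nb τ ρ) ∧ (∀ s ∈ Icc 0 τ, Ψ (s : ℝ) = p s) ∧
    ∀ z ∈ Nb τ ρ, Ψ z ∈ Ω ∧ deriv g (Ψ z) ≠ 0 ∧ g (Ψ z) = cexp (-(κ * z)) * g y

/-- the flow -/
def Flow (g : ℂ → ℂ) (Ω : Set ℂ) (κ : ℂ) : Prop :=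
  (∀ y p τ, Tr g Ω κ y p τ → ∀ s ∈ Icc 0 τ, Fl g Ω κ (s, y) = p s) ∧ IsOpen (Dom g Ω κ) ∧
    ContinuousOn (Fl g Ω κ) (Dom g Ω κ) ∧ Measurable (en g Ω κ) ∧
    (∀ s, InjOn (fun y => Fl g Ω κ (s, y)) {y | (s, y) ∈ Dom g Ω κ}) ∧
    ∀ q ∈ Dom g Ω κ, HasDerivAt (fun y => Fl g Ω κ (q.1, y))
        (cexp (-(κ * q.1)) * deriv g q.2 / deriv g (Fl g Ω κ q)) q.2 ∧
      HasDerivAt (fun s => Fl g Ω κ (s, q.2))
        (-(κ * (g (Fl g Ω κ q) / deriv g (Fl g Ω κ q)))) q.1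

def S_FLOW : Prop := ∀ (g : ℂ → ℂ) (Ω : Set ℂ) (κ : ℂ), IsOpen Ω → DifferentiableOn ℂ g Ω →
  κ ≠ 0 → Flow g Ω κ

/-- length-area -/
def S_AREA : Prop := ∀ (g : ℂ → ℂ) (Ω : Set ℂ) (κ : ℂ), IsOpen Ω → DifferentiableOn ℂ g Ω →
  Flow g Ω κ → Measurable (fun y => mu g y * En g Ω κ y) →
    ∫⁻ y, mu g y * En g Ω κ y ≤ 2 * ∫⁻ y in Ω, ENNReal.ofReal (wt y)

/-- measurability -/
def S_MEAS : Prop := ∀ (g : ℂ → ℂ) (Ω : Set ℂ) (κ : ℂ), IsOpen Ω → DifferentiableOn ℂ g Ω →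
  Flow g Ω κ → Measurable (fun q : ℝ × ℂ => mu g q.2 * en g Ω κ q) ∧
    Measurable (fun y => mu g y * En g Ω κ y)

/-- translation and monotonicity -/
def S_TRA : Prop := ∀ (g : ℂ → ℂ) (Ω Ω' : Set ℂ) (κ : ℂ) (a : ℝ), Flow g Ω κ →
  (∀ y ∈ Ω', y + a ∈ Ω) → Lam (fun y => g (y + a)) Ω' κ 0 ≤ Lam g Ω κ a

/-- most translates are typical -/
def Spec_SEL : Prop := ∃ C : ℝ, 0 < C ∧ ∀ (g : ℂ → ℂ) (κ : ℂ) (T N P η : ℝ), κ ≠ 0 → 0 < N →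
  N ≤ P → 0 < η → DifferentiableOn ℂ g {y | -T < y.im ∧ y.im < 0} →
    volume {a : ℝ | a ∈ Ico 0 P ∧ ¬ Typ (fun y => g (y + a)) κ N T (C / η)} ≤
      ENNReal.ofReal (η * P)

/-- convergence of windows -/
structure Cv (l : Filter ℕ) (G : ℕ → ℂ → ℂ) (N T : ℕ → ℝ) (g : ℂ → ℂ) : Prop where
  hN : Tendsto N l atTop
  hT : Tendsto T l atTop
  hol : ∀ᶠ n in l, DifferentiableOn ℂ (G n) (Bx (N n) (T n))
  lim : TendstoLocallyUniformlyOn G g l LH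
  hg : DifferentiableOn ℂ g LH

/-- stability of the flow -/
def S_STAB : Prop := ∀ (l : Filter ℕ) (G : ℕ → ℂ → ℂ) (N T : ℕ → ℝ) (g : ℂ → ℂ) (κ : ℂ), κ ≠ 0 →
  Cv l G N T g → ∀ q ∈ Dom g LH κ, (∀ᶠ n in l, q ∈ Dom (G n) (Bx (N n) (T n)) κ) ∧
    Tendsto (fun n => Fl (G n) (Bx (N n) (T n)) κ q) l (𝓝 (Fl g LH κ q))

/-- a sequence inside a filter -/
def S_SEQ : Prop := ∀ (l : Filter ℕ) (G : ℕ → ℂ → ℂ) (N T : ℕ → ℝ) (g : ℂ → ℂ) (A : Set ℕ),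
  l.NeBot → Cv l G N T g → A ∈ l → ∃ φ : ℕ → ℕ, (∀ k, φ k ∈ A) ∧
    (∀ k, DifferentiableOn ℂ (G (φ k)) (Bx (N (φ k)) (T (φ k)))) ∧
    Cv atTop (fun k => G (φ k)) (fun k => N (φ k)) (fun k => T (φ k)) g

/-- lower semicontinuity -/
def Spec_LSC : Prop := ∀ (l : Filter ℕ) (G : ℕ → ℂ → ℂ) (N T : ℕ → ℝ) (g : ℂ → ℂ) (κ : ℂ) (M : ℝ),
  κ ≠ 0 → l.NeBot → Cv l G N T g → (∀ᶠ n in l, Typ (G n) κ (N n) (T n) M) → FinE g κ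

/-- growth along a curve of finite energy (real analysis) -/
def S_GROW : Prop := ∀ (p v : ℝ → ℂ) (S : Set ℝ), (S = Ioi 0 ∨ ∃ τ, S = Ioo 0 τ) →
  ContinuousOn p (insert 0 S) → ContinuousOn v S →
  (∀ s ∈ S, (p s).im < 0 ∧ HasDerivAt p (v s) s) →
  (∫⁻ s in S, ENNReal.ofReal (Real.exp (-s / 2) * (‖v s‖ ^ 2 * wt (p s)))) < ⊤ →
    IntegrableOn (fun s => Real.exp (-s) * ‖v s‖) S

def S_GOOD : Prop := ∀ (g : ℂ → ℂ) (κ y : ℂ) (τ₀ : ℝ), DifferentiableOn ℂ g LH → κ.re = 1 →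
  0 < τ₀ → y ∈ LH → g y ≠ 0 → Sh g κ τ₀ y → En g LH κ y < ⊤ →
  (∀ s : ℝ, 0 ≤ s → ∀ c ∈ LH, deriv g c = 0 → g c ≠ cexp (-(κ * s)) * g y) → Good g κ y

/-- almost every spiral meets a null set in a null set and avoids a countable set -/
def S_RAY : Prop := ∀ (κ c : ℂ) (E V : Set ℂ), c ≠ 0 → volume E = 0 → V.Countable →
  ∀ᵐ J : ℂ, (∀ᵐ s : ℝ, c / J * cexp (-(κ * s)) ∉ E) ∧ (J ≠ 0 ∧
    ∀ s : ℝ, c / J * cexp (-(κ * s)) ∉ V)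

/-- critical values are countable -/
def S_CRIT : Prop := ∀ g : ℂ → ℂ, DifferentiableOn ℂ g LH →
  (g '' {c | c ∈ LH ∧ deriv g c = 0}).Countable

/-- THE OUTPUT: for almost every `J` all shielded points on the spirals are good -/
def Spec_DIR : Prop := ∀ (g : ℂ → ℂ) (κ : ℂ) (τ₀ : ℝ) (C : Set ℂ), DifferentiableOn ℂ g LH →
  κ.re = 1 → 0 < τ₀ → C.Countable → (0 : ℂ) ∉ C → FinE g κ →
  ∀ᵐ J : ℂ, ∀ c ∈ C, ∀ y ∈ LH, ∀ τ : ℝ, J * g y * cexp (κ * τ) = c → Sh g κ τ₀ y → Good g κ y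

theorem isOpen_LH : IsOpen LH := isOpen_lt Complex.continuous_im continuous_const

theorem isOpen_Bx (N T : ℝ) : IsOpen (Bx N T) :=
  IsOpen.and (isOpen_lt Complex.continuous_re.abs continuous_const)
    (IsOpen.and (isOpen_lt continuous_const Complex.continuous_im)
      (isOpen_lt Complex.continuous_im continuous_const))

theorem isOpen_Nb (τ ρ : ℝ) : IsOpen (Nb τ ρ) :=
  IsOpen.and (isOpen_lt continuous_const Complex.continuous_re)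
    (IsOpen.and (isOpen_lt Complex.continuous_re continuous_const)
      (isOpen_lt Complex.continuous_im.abs continuous_const))

theorem convex_Nb (τ ρ : ℝ) : Convex ℝ (Nb τ ρ) := by
  have e : Nb τ ρ = ({z : ℂ | -ρ < z.re} ∩ {z : ℂ | z.re < τ + ρ}) ∩
      ({z : ℂ | -ρ < z.im} ∩ {z : ℂ | z.im < ρ}) := by
    ext z; simp only [Nb, mem_setOf_eq, mem_inter_iff, abs_lt]; tauto
  rw [e]
  exact ((convex_halfSpace_re_gt _).inter (convex_halfSpace_re_lt _)).inter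
    ((convex_halfSpace_im_gt _).inter (convex_halfSpace_im_lt _))

theorem mem_Nb {τ ρ s : ℝ} (hρ : 0 < ρ) (hs : s ∈ Icc 0 τ) : (s : ℂ) ∈ Nb τ ρ := by
  refine ⟨?_, ?_, ?_⟩ <;> simp <;> linarith [hs.1, hs.2]

theorem Tr.mono {g : ℂ → ℂ} {Ω : Set ℂ} {κ y : ℂ} {p : ℝ → ℂ} {τ τ' : ℝ} (h : Tr g Ω κ y p τ)
    (k : τ' ≤ τ) : Tr g Ω κ y p τ' :=
  ⟨h.cont.mono (Icc_subset_Icc_right k), h.zero, fun s hs => h.mem s ⟨hs.1, hs.2.trans k⟩,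
    fun s hs => h.reg s ⟨hs.1, hs.2.trans k⟩, fun s hs => h.val s ⟨hs.1, hs.2.trans k⟩⟩

end Vale.Agent.P097F.T
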