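import Vale.Agent.P097F.T.Defs

/-! # P097F.T: length-area -/

set_option linter.all false

noncomputable section

namespace Vale.Agent.P097F.T

open Filter Topology Set Metric MeasureTheory Complex
open scoped ENNReal

theorem ar_det (a : ℂ) :
    |((ContinuousLinearMap.toSpanSingleton ℂ a).restrictScalars ℝ : ℂ →L[ℝ] ℂ).det| = ‖a‖ ^ 2 := by
  simp [ContinuousLinearMap.det, LinearMap.det_restrictScalars, Algebra.norm_complex_eq,
    Complex.normSq_eq_norm_sq]

theorem ar_exp : ∫⁻ s in Ioi (0 : ℝ), ENNReal.ofReal (Real.exp (-s / 2)) = 2 := by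
  have e : (fun s : ℝ => Real.exp (-s / 2)) = fun s => Real.exp (-(1 / 2) * s) := by
    ext s; congr 1; ring
  have hi : IntegrableOn (fun s : ℝ => Real.exp (-s / 2)) (Ioi 0) := by
    rw [e]; exact exp_neg_integrableOn_Ioi 0 (by norm_num)
  rw [← ofReal_integral_eq_lintegral_ofReal hi (ae_of_all _ fun s => (Real.exp_pos _).le), e,
    integral_exp_mul_Ioi (by norm_num)]
  norm_num

theorem ar_fix {g : ℂ → ℂ} {Ω : Set ℂ} {κ : ℂ} (hF : Flow g Ω κ) (s : ℝ) :
    ∫⁻ y, mu g y * en g Ω κ (s, y) ≤ (Ioi (0 : ℝ)).indicator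
      (fun s => ENNReal.ofReal (Real.exp (-s / 2))) s * ∫⁻ y in Ω, ENNReal.ofReal (wt y) := by
  obtain ⟨h1, h2, -, -, h5, h6⟩ := hF
  by_cases hs : 0 < s
  swap
  · have : ∀ y, mu g y * en g Ω κ (s, y) = 0 := fun y => by
      rw [en, indicator_of_notMem (fun h => hs h.1), mul_zero]
    simp [this]
  rw [indicator_of_mem (show s ∈ Ioi (0 : ℝ) from hs)]
  let D : Set ℂ := {y | (s, y) ∈ Dom g Ω κ}
  have hD : IsOpen D := h2.preimage (by fun_prop : Continuous fun y : ℂ => (s, y))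
  let Φ : ℂ → ℂ := fun y => Fl g Ω κ (s, y)
  let c : ℂ → ℂ := fun y => cexp (-(κ * s)) * deriv g y / deriv g (Φ y)
  have hp : ∀ y ∈ D, Φ y ∈ Ω ∧ g (Φ y) = cexp (-(κ * s)) * g y ∧ g y ≠ 0 := by
    rintro y ⟨-, h0, p, hp⟩
    have e : Φ y = p s := h1 y p s hp s ⟨hs.le, le_rfl⟩
    rw [e]
    exact ⟨hp.mem s ⟨hs.le, le_rfl⟩, hp.val s ⟨hs.le, le_rfl⟩, h0⟩
  have key := lintegral_image_eq_lintegral_abs_det_fderiv_mul volume hD.measurableSet
    (f := Φ) (f' := fun y =>
      ((ContinuousLinearMap.toSpanSingleton ℂ (c y)).restrictScalars ℝ : ℂ →L[ℝ] ℂ))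
    (fun y hy => (((h6 (s, y) hy).1.hasFDerivAt).restrictScalars ℝ).hasFDerivWithinAt) (h5 s)
    (fun y => ENNReal.ofReal (wt y))
  have e : (fun y => mu g y * en g Ω κ (s, y)) = D.indicator fun y =>
      ENNReal.ofReal (Real.exp (-s / 2)) * (ENNReal.ofReal
        |((ContinuousLinearMap.toSpanSingleton ℂ (c y)).restrictScalars ℝ : ℂ →L[ℝ] ℂ).det| *
        ENNReal.ofReal (wt (Φ y))) := by
    ext y
    by_cases hy : y ∈ D
    · obtain ⟨-, k2, k3⟩ := hp y hy
      rw [indicator_of_mem hy, en, indicator_of_mem (show (s, y) ∈ Dom g Ω κ from hy), mu, ar_det,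
        ← ENNReal.ofReal_mul (by positivity), ← ENNReal.ofReal_mul (by positivity),
        ← ENNReal.ofReal_mul (by positivity)]
      congr 1
      have : c y = deriv g y / g y * (g (Φ y) / deriv g (Φ y)) := by
        simp only [c]
        rw [k2]
        field_simp
      rw [this, norm_mul]
      ring
    · rw [indicator_of_notMem hy, en,
        indicator_of_notMem (show (s, y) ∉ Dom g Ω κ from hy), mul_zero]
  rw [e, lintegral_indicator hD.measurableSet, lintegral_const_mul' _ _ ENNReal.ofReal_ne_top,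
    ← key]
  gcongr
  rintro _ ⟨y, hy, rfl⟩
  exact (hp y hy).1

theorem area (h : S_MEAS) : S_AREA := by
  intro g Ω κ hΩ hg hF _
  obtain ⟨m1, -⟩ := h g Ω κ hΩ hg hF
  have e : ∀ y, mu g y * En g Ω κ y = ∫⁻ s, mu g y * en g Ω κ (s, y) := fun y =>
    (lintegral_const_mul' _ _ ENNReal.ofReal_ne_top).symm
  simp only [e]
  rw [← lintegral_lintegral_swap (f := fun (s : ℝ) (y : ℂ) => mu g y * en g Ω κ (s, y))
    m1.aemeasurable]
  refine (lintegral_mono fun s => ar_fix hF s).trans ?_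
  rw [lintegral_mul_const _ (Measurable.indicator (by fun_prop) measurableSet_Ioi),
    lintegral_indicator measurableSet_Ioi, ar_exp]

end Vale.Agent.P097F.T
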