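import Vale.Agent.P097F.T.Defs

/-!
# P097F.T: almost every family of spirals is good
-/

set_option linter.all false

noncomputable section

namespace Vale.Agent.P097F.T

open Filter Topology Set Metric MeasureTheory Complex
open scoped ENNReal

/-- concatenation -/
def cat (p q : ℝ → ℂ) (r : ℝ) (s : ℝ) : ℂ := if s ≤ r then p s else q (s - r)

theorem cat_ge {p q : ℝ → ℂ} {r s : ℝ} (h : q 0 = p r) (hs : r ≤ s) : cat p q r s = q (s - r) := by
  unfold cat
  split_ifs with k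
  · have : s = r := le_antisymm k hs
    rw [this, sub_self, h]
  · rfl

theorem cat_le {p q : ℝ → ℂ} {r s : ℝ} (hs : s ≤ r) : cat p q r s = p s := if_pos hs

theorem Tr.cat {g : ℂ → ℂ} {Ω : Set ℂ} {κ y : ℂ} {p q : ℝ → ℂ} {r τ : ℝ} (hr : 0 ≤ r)
    (hτ : 0 ≤ τ) (h : Tr g Ω κ y p r) (k : Tr g Ω κ (p r) q τ) :
    Tr g Ω κ y (cat p q r) (r + τ) := by
  have key : ∀ s ∈ Icc 0 (r + τ), (s ∈ Icc 0 r ∧ T.cat p q r s = p s) ∨
      (s - r ∈ Icc 0 τ ∧ T.cat p q r s = q (s - r)) := by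
    intro s hs
    rcases le_total s r with a | a
    · exact Or.inl ⟨⟨hs.1, a⟩, cat_le a⟩
    · exact Or.inr ⟨⟨by linarith, by linarith [hs.2]⟩, cat_ge k.zero a⟩
  refine ⟨?_, by rw [cat_le hr, h.zero], ?_, ?_, ?_⟩
  · rw [← Icc_union_Icc_eq_Icc hr (by linarith : r ≤ r + τ)]
    refine ContinuousOn.union_of_isClosed ?_ ?_ isClosed_Icc isClosed_Icc
    · exact h.cont.congr fun s hs => cat_le hs.2
    · have : ContinuousOn (fun s => q (s - r)) (Icc r (r + τ)) :=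
        k.cont.comp (by fun_prop) fun s hs => ⟨by linarith [hs.1], by linarith [hs.2]⟩
      exact this.congr fun s hs => cat_ge k.zero hs.1
  · intro s hs
    rcases key s hs with ⟨a, e⟩ | ⟨a, e⟩ <;> rw [e]
    exacts [h.mem s a, k.mem _ a]
  · intro s hs
    rcases key s hs with ⟨a, e⟩ | ⟨a, e⟩ <;> rw [e]
    exacts [h.reg s a, k.reg _ a]
  · intro s hs
    rcases key s hs with ⟨a, e⟩ | ⟨a, e⟩ <;> rw [e]
    · exact h.val s a
    · rw [k.val _ a, h.val r ⟨hr, le_rfl⟩, ← mul_assoc, ← Complex.exp_add]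
      congr 2
      push_cast
      ring

theorem Sh.fwd {g : ℂ → ℂ} {κ y : ℂ} {p : ℝ → ℂ} {r τ₀ : ℝ} (hS : Sh g κ τ₀ y) (hr : 0 ≤ r)
    (h : Tr g LH κ y p r) : Sh g κ τ₀ (p r) := by
  intro q τ hτ k
  have := hS _ _ (by linarith) (h.cat hr hτ k)
  rwa [cat_ge k.zero (by linarith), add_sub_cancel_left] at this

theorem Good.back {g : ℂ → ℂ} {κ y : ℂ} {p : ℝ → ℂ} {r : ℝ} (hg : DifferentiableOn ℂ g LH)
    (hr : 0 ≤ r) (h : Tr g LH κ y p r) (k : Good g κ (p r)) : Good g κ y := by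
  obtain ⟨q, hq, hi⟩ := k
  refine ⟨cat p q r, fun τ => (h.cat hr (le_max_right τ 0) (hq _)).mono
    (by linarith [le_max_left τ 0]), ?_⟩
  have e : Ioi (0 : ℝ) ⊆ Icc 0 r ∪ Ioi r := fun s hs => by
    rcases le_or_gt s r with a | a
    exacts [Or.inl ⟨le_of_lt hs, a⟩, Or.inr a]
  refine IntegrableOn.mono_set (IntegrableOn.union ?_ ?_) e
  · have c1 : ContinuousOn (fun s => ‖g (p s) ^ 2 / deriv g (p s)‖) (Icc 0 r) :=
      (((hg.continuousOn.comp h.cont h.mem).pow 2).div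
        ((hg.deriv isOpen_LH).continuousOn.comp h.cont h.mem) h.reg).norm
    refine c1.integrableOn_Icc.congr_fun (fun s hs => ?_) measurableSet_Icc
    simp only [cat_le hs.2]
  · have c2 : IntegrableOn (fun s => ‖g (q (s - r)) ^ 2 / deriv g (q (s - r))‖) (Ioi r) := by
      have := ((measurePreserving_sub_right volume r).integrableOn_comp_preimage
        (measurableEmbedding_subRight r)).2 hi
      simpa [Function.comp_def] using this
    refine c2.congr_fun (fun s hs => ?_) measurableSet_Ioi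
    simp only [cat_ge (hq 0).zero (le_of_lt hs)]

theorem dir (h1 : S_TUBE) (h3 : S_GOOD) (h4 : S_RAY) (h5 : S_CRIT) : Spec_DIR := by
  intro g κ τ₀ C hg hκ hτ hC h0 hF
  have hB : volume {y | y ∈ LH ∧ En g LH κ y = ⊤} = 0 := by
    refine measure_mono_null (fun y hy => ?_) (ae_iff.1 hF)
    simp [hy.2]
  have hE : volume (g '' {y | y ∈ LH ∧ En g LH κ y = ⊤}) = 0 :=
    addHaar_image_eq_zero_of_differentiableOn_of_addHaar_eq_zero volume
      ((hg.mono fun y hy => hy.1).restrictScalars ℝ) hB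
  refine (ae_ball_iff hC).2 fun c hc => ?_
  have hc0 : c ≠ 0 := fun e => h0 (e ▸ hc)
  filter_upwards [h4 κ c _ _ hc0 hE (h5 g hg)] with J ⟨ha, hJ, hV⟩ y hy τ hv hS
  have gy : ∀ s : ℝ, cexp (-(κ * s)) * g y = c / J * cexp (-(κ * (τ + s : ℝ))) := by
    intro s
    rw [← hv]
    push_cast
    rw [show -(κ * (τ + s)) = -(κ * s) - κ * τ by ring, Complex.exp_sub]
    field_simp [Complex.exp_ne_zero]
  have nc : ∀ s : ℝ, ∀ x ∈ LH, deriv g x = 0 → g x ≠ cexp (-(κ * s)) * g y := by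
    intro s x hx h e
    exact hV (τ + s) ⟨x, ⟨hx, h⟩, by rw [e, gy]⟩
  have g0 : g y ≠ 0 := fun e => hc0 (by rw [← hv, e]; simp)
  have t0 : Tr g LH κ y (fun _ => y) 0 := by
    refine ⟨continuousOn_const, rfl, fun _ _ => hy, fun _ _ h => nc 0 y hy h (by simp), ?_⟩
    intro s hs
    have : s = 0 := le_antisymm hs.2 hs.1
    simp [this]
  obtain ⟨ρ, Ψ, hρ, hΨ, hp, hm⟩ := h1 g LH κ y _ 0 isOpen_LH hg le_rfl t0
  obtain ⟨s, hs, hn⟩ := Measure.exists_mem_of_measure_ne_zero_of_ae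
    (μ := volume) (s := Ioo τ (τ + ρ)) (by simp [hρ]) (ae_restrict_of_ae ha)
  set r := s - τ with hr
  have r0 : 0 < r := by linarith [hs.1]
  have r1 : r < ρ := by linarith [hs.2]
  have hN : ∀ u ∈ Icc 0 r, (u : ℂ) ∈ Nb 0 ρ := fun u hu => by
    refine ⟨?_, ?_, ?_⟩ <;> simp <;> linarith [hu.1, hu.2]
  have t1 : Tr g LH κ y (fun u => Ψ u) r :=
    ⟨hΨ.continuousOn.comp Complex.continuous_ofReal.continuousOn hN, by
      simpa using hp 0 ⟨le_rfl, le_rfl⟩, fun u hu => (hm _ (hN u hu)).1,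
      fun u hu => (hm _ (hN u hu)).2.1, fun u hu => (hm _ (hN u hu)).2.2⟩
  have hr' : r ∈ Icc 0 r := ⟨r0.le, le_rfl⟩
  have v := t1.val r hr'
  refine Good.back hg r0.le t1 (h3 g κ _ τ₀ hg hκ hτ (t1.mem r hr') ?_ (hS.fwd r0.le t1) ?_ ?_)
  · rw [v]; exact mul_ne_zero (Complex.exp_ne_zero _) g0
  · refine lt_top_iff_ne_top.2 fun e => hn ⟨_, ⟨t1.mem r hr', e⟩, ?_⟩
    rw [v, gy, show τ + r = s by rw [hr]; ring]
  · intro u _ x hx h e
    refine nc (u + r) x hx h ?_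
    rw [e, v, ← mul_assoc, ← Complex.exp_add]
    congr 2
    push_cast
    ring

end Vale.Agent.P097F.T
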