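import Vale.Agent.P097F.T.Defs

/-!
# P097F.T: the flow of descent lines
-/

set_option linter.all false

noncomputable section

namespace Vale.Agent.P097F.T

open Filter Topology Set Metric MeasureTheory Complex
open scoped ENNReal

variable {g : ℂ → ℂ} {Ω : Set ℂ} {κ : ℂ}

theorem flow_eq (h1 : S_UNIQ) (hΩ : IsOpen Ω) (hg : DifferentiableOn ℂ g Ω) {y : ℂ} {p : ℝ → ℂ}
    {τ : ℝ} (h : Tr g Ω κ y p τ) {s : ℝ} (hs : s ∈ Icc 0 τ) : Fl g Ω κ (s, y) = p s := by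
  have h' := h.mono hs.2
  have hex : ∃ p, Tr g Ω κ (s, y).2 p (s, y).1 := ⟨p, h'⟩
  have hc : Tr g Ω κ y hex.choose s := hex.choose_spec
  unfold Fl
  rw [dif_pos hex]
  exact h1 g Ω hex.choose p (Icc 0 s) hΩ hg isPreconnected_Icc hc.cont h'.cont
    (fun t ht => ⟨hc.mem t ht, hc.reg t ht, by rw [hc.val t ht, h'.val t ht]⟩)
    ⟨0, ⟨le_rfl, hs.1⟩, by rw [hc.zero, h'.zero]⟩ ⟨hs.1, le_rfl⟩

theorem flow_inj {f : ℂ → ℂ} {z : ℂ} (hf : AnalyticAt ℂ f z) (h0 : deriv f z ≠ 0) :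
    ∃ U ∈ 𝓝 z, InjOn f U := by
  have h := hf.hasStrictDerivAt
  have := (h.hasStrictFDerivAt_equiv h0).eventually_left_inverse
  exact ⟨_, this, fun a ha b hb e => by
    have h1 : _ = a := ha
    have h2 : _ = b := hb
    rw [← h1, ← h2, e]⟩

/-- the local formula for the flow -/
theorem flow_loc (h1 : S_UNIQ) (h2 : S_TUBE) (hΩ : IsOpen Ω) (hg : DifferentiableOn ℂ g Ω)
    (hκ : κ ≠ 0) {q : ℝ × ℂ} (hq : q ∈ Dom g Ω κ) : ∃ Ψ l : ℂ → ℂ, AnalyticAt ℂ Ψ q.1 ∧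
    AnalyticAt ℂ l q.2 ∧ l q.2 = 0 ∧ (∀ᶠ z in 𝓝 (q.1 : ℂ), g (Ψ z) = cexp (-(κ * z)) * g q.2) ∧
    ∀ᶠ q' in 𝓝 q, q' ∈ Dom g Ω κ ∧ Fl g Ω κ q' = Ψ (q'.1 + l q'.2) := by
  obtain ⟨s₀, y₀⟩ := q
  obtain ⟨hs₀, hg₀, p, hp⟩ := hq
  simp only at hs₀ hg₀ hp ⊢
  obtain ⟨ρ, Ψ, hρ, hΨ, hΨp, hΨv⟩ := h2 g Ω κ y₀ p s₀ hΩ hg hs₀.le hp
  have h0 : (0 : ℝ) ∈ Icc 0 s₀ := ⟨le_rfl, hs₀.le⟩
  have hy₀ : y₀ ∈ Ω := hp.zero ▸ hp.mem 0 h0
  have hd₀ : deriv g y₀ ≠ 0 := hp.zero ▸ hp.reg 0 h0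
  have ag : AnalyticAt ℂ g y₀ := hg.analyticAt (hΩ.mem_nhds hy₀)
  have aΨ : ∀ z ∈ Nb s₀ ρ, AnalyticAt ℂ Ψ z :=
    fun z hz => hΨ.analyticAt ((isOpen_Nb _ _).mem_nhds hz)
  set l : ℂ → ℂ := fun y => Complex.log (g y₀ / g y) / κ with hl
  have al : AnalyticAt ℂ l y₀ :=
    ((analyticAt_const.div ag hg₀).clog (by
      show g y₀ / g y₀ ∈ slitPlane
      rw [div_self hg₀]
      exact one_mem_slitPlane)).div_const
  have l0 : l y₀ = 0 := by simp only [hl, div_self hg₀, Complex.log_one, zero_div]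
  have hexp : ∀ y, g y ≠ 0 → cexp (-(κ * l y)) * g y₀ = g y := by
    intro y hy
    have : κ * l y = Complex.log (g y₀ / g y) := by
      simp only [hl]
      field_simp
    rw [this, Complex.exp_neg, Complex.exp_log (div_ne_zero hg₀ hy)]
    field_simp
  have m0 : ((0 : ℝ) : ℂ) ∈ Nb s₀ ρ := mem_Nb hρ h0
  have Ψ0 : Ψ 0 = y₀ := by
    have := hΨp 0 h0
    rw [hp.zero] at this
    simpa using this
  obtain ⟨U, hU, iU⟩ := flow_inj ag hd₀
  have tl : Tendsto l (𝓝 y₀) (𝓝 0) := l0 ▸ al.continuousAt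
  have tΨ : Tendsto Ψ (𝓝 0) (𝓝 y₀) := by
    have := (aΨ _ m0).continuousAt
    rw [Complex.ofReal_zero] at this
    exact Ψ0 ▸ this
  have e1 : ∀ᶠ y in 𝓝 y₀, g y ≠ 0 := ag.continuousAt.eventually_ne hg₀
  have e2 : ∀ᶠ y in 𝓝 y₀, ‖l y‖ < ρ / 2 := by
    have := tl.eventually (ball_mem_nhds (0 : ℂ) (half_pos hρ))
    simpa using this
  have e3 : ∀ᶠ y in 𝓝 y₀, Ψ (l y) ∈ U := (tΨ.comp tl).eventually hU
  have e4 : ∀ᶠ s in 𝓝 s₀, s ∈ Ioo 0 (s₀ + ρ / 2) := Ioo_mem_nhds hs₀ (by linarith)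
  refine ⟨Ψ, l, aΨ _ (mem_Nb hρ ⟨hs₀.le, le_rfl⟩), al, l0, ?_, ?_⟩
  · filter_upwards [(isOpen_Nb s₀ ρ).mem_nhds (mem_Nb hρ ⟨hs₀.le, le_rfl⟩)] with z hz
    exact (hΨv z hz).2.2
  have t1 : Tendsto (fun q : ℝ × ℂ => q.1) (𝓝 (s₀, y₀)) (𝓝 s₀) := continuous_fst.tendsto _
  have t2 : Tendsto (fun q : ℝ × ℂ => q.2) (𝓝 (s₀, y₀)) (𝓝 y₀) := continuous_snd.tendsto _
  filter_upwards [t1.eventually e4, t2.eventually e1, t2.eventually e2, t2.eventually e3,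
    t2.eventually hU] with q' f4 f1 f2 f3 f5
  obtain ⟨s, y⟩ := q'
  simp only at f4 f1 f2 f3 f5 ⊢
  have hm : ∀ t ∈ Icc 0 s, (t : ℂ) + l y ∈ Nb s₀ ρ := by
    intro t ht
    have a1 := abs_le.1 ((Complex.abs_re_le_norm (l y)).trans f2.le)
    have a2 := (Complex.abs_im_le_norm (l y)).trans_lt f2
    refine ⟨?_, ?_, ?_⟩
    · simp only [Complex.add_re, Complex.ofReal_re]
      linarith [ht.1]
    · simp only [Complex.add_re, Complex.ofReal_re]
      have a3 := (abs_lt.1 ((Complex.abs_re_le_norm (l y)).trans_lt f2)).2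
      linarith [ht.2, f4.2]
    · simp only [Complex.add_im, Complex.ofReal_im, zero_add]
      linarith
  have hv : ∀ t ∈ Icc 0 s, g (Ψ (t + l y)) = cexp (-(κ * t)) * g y := by
    intro t ht
    rw [(hΨv _ (hm t ht)).2.2, ← hexp y f1, ← mul_assoc, ← Complex.exp_add]
    congr 2
    ring
  have hT : Tr g Ω κ y (fun t => Ψ (t + l y)) s := by
    refine ⟨?_, ?_, fun t ht => (hΨv _ (hm t ht)).1, fun t ht => (hΨv _ (hm t ht)).2.1, hv⟩
    · exact hΨ.continuousOn.comp (Complex.continuous_ofReal.add continuous_const).continuousOn hm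
    · have := hv 0 ⟨le_rfl, f4.1.le⟩
      simp only [Complex.ofReal_zero, zero_add, mul_zero, neg_zero, Complex.exp_zero,
        one_mul] at this ⊢
      exact iU f3 f5 this
  exact ⟨⟨f4.1, f1, _, hT⟩, flow_eq h1 hΩ hg hT ⟨f4.1.le, le_rfl⟩⟩

theorem flow_val (h1 : S_UNIQ) (hΩ : IsOpen Ω) (hg : DifferentiableOn ℂ g Ω) {q : ℝ × ℂ}
    (hq : q ∈ Dom g Ω κ) : Fl g Ω κ q ∈ Ω ∧ deriv g (Fl g Ω κ q) ≠ 0 ∧
    g (Fl g Ω κ q) = cexp (-(κ * q.1)) * g q.2 := by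
  obtain ⟨hs, -, p, hp⟩ := hq
  have hm : q.1 ∈ Icc 0 q.1 := ⟨hs.le, le_rfl⟩
  have e : Fl g Ω κ q = p q.1 := flow_eq h1 hΩ hg hp hm
  rw [e]
  exact ⟨hp.mem _ hm, hp.reg _ hm, hp.val _ hm⟩

theorem continuous_wt : Continuous wt := by
  unfold wt
  refine (continuous_const.add Complex.continuous_im.abs).rpow_const fun y => Or.inl ?_
  have := abs_nonneg y.im
  show 1 + |y.im| ≠ 0
  positivity

theorem flow (h1 : S_UNIQ) (h2 : S_TUBE) : S_FLOW := by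
  classical
  intro g Ω κ hΩ hg hκ
  have hO : IsOpen (Dom g Ω κ) := by
    rw [isOpen_iff_mem_nhds]
    intro q hq
    obtain ⟨Ψ, l, -, -, -, -, h⟩ := flow_loc h1 h2 hΩ hg hκ hq
    exact h.mono fun q' h' => h'.1
  have hC : ContinuousOn (Fl g Ω κ) (Dom g Ω κ) := by
    intro q hq
    obtain ⟨Ψ, l, aΨ, al, l0, -, h⟩ := flow_loc h1 h2 hΩ hg hκ hq
    have c1 : ContinuousAt (fun q' : ℝ × ℂ => (q'.1 : ℂ) + l q'.2) q :=
      (Complex.continuous_ofReal.comp continuous_fst).continuousAt.add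
        (al.continuousAt.comp continuousAt_snd)
    have c2 : ContinuousAt (fun q' : ℝ × ℂ => Ψ ((q'.1 : ℂ) + l q'.2)) q :=
      ContinuousAt.comp (g := Ψ) (f := fun q' : ℝ × ℂ => (q'.1 : ℂ) + l q'.2)
        (by simpa only [l0, add_zero] using aΨ.continuousAt) c1
    exact (c2.congr (h.mono fun q' h' => h'.2.symm)).continuousWithinAt
  refine ⟨fun y p τ h s hs => flow_eq h1 hΩ hg h hs, hO, hC, ?_, ?_, ?_⟩
  · unfold en
    rw [← piecewise_eq_indicator]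
    refine ContinuousOn.measurable_piecewise ?_ continuousOn_const hO.measurableSet
    have hm : MapsTo (Fl g Ω κ) (Dom g Ω κ) Ω := fun q hq => (flow_val h1 hΩ hg hq).1
    have c1 := hg.continuousOn.comp hC hm
    have c2 := (hg.deriv hΩ).continuousOn.comp hC hm
    have c3 := c1.div c2 fun q hq => (flow_val h1 hΩ hg hq).2.1
    have c4 : Continuous fun q : ℝ × ℂ => Real.exp (-q.1 / 2) := by fun_prop
    exact ENNReal.continuous_ofReal.comp_continuousOn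
      (c4.continuousOn.mul ((c3.norm.pow 2).mul (continuous_wt.comp_continuousOn hC)))
  · intro s y hy y' hy' e
    obtain ⟨hs, -, p, hp⟩ := hy
    obtain ⟨-, -, p', hp'⟩ := hy'
    simp only at hs hp hp' e
    have hm : s ∈ Icc 0 s := ⟨hs.le, le_rfl⟩
    rw [flow_eq h1 hΩ hg hp hm, flow_eq h1 hΩ hg hp' hm] at e
    have e1 : g y = g y' := by
      have := hp.val s hm
      rw [e, hp'.val s hm] at this
      exact (mul_left_cancel₀ (Complex.exp_ne_zero _) this).symm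
    have := h1 g Ω p p' (Icc 0 s) hΩ hg isPreconnected_Icc hp.cont hp'.cont
      (fun t ht => ⟨hp.mem t ht, hp.reg t ht, by rw [hp.val t ht, hp'.val t ht, e1]⟩)
      ⟨s, hm, e⟩ (⟨le_rfl, hs.le⟩ : (0 : ℝ) ∈ Icc 0 s)
    rwa [hp.zero, hp'.zero] at this
  · intro q hq
    obtain ⟨Ψ, l, aΨ, al, l0, hv, h⟩ := flow_loc h1 h2 hΩ hg hκ hq
    obtain ⟨m1, m2, m3⟩ := flow_val h1 hΩ hg hq
    have dg : HasDerivAt g (deriv g (Fl g Ω κ q)) (Fl g Ω κ q) :=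
      (hg.differentiableAt (hΩ.mem_nhds m1)).hasDerivAt
    have e0 : Fl g Ω κ q = Ψ q.1 := by rw [h.self_of_nhds.2, l0, add_zero]
    have hy : q.2 ∈ Ω := by
      obtain ⟨hs, -, p, hp⟩ := hq
      exact hp.zero ▸ hp.mem 0 ⟨le_rfl, hs.le⟩
    constructor
    · have t : Tendsto (fun y : ℂ => (q.1, y)) (𝓝 q.2) (𝓝 q) :=
        (Continuous.prodMk_right q.1).tendsto q.2
      have d1 : DifferentiableAt ℂ (fun y => Ψ ((q.1 : ℂ) + l y)) q.2 :=
        DifferentiableAt.comp (g := Ψ) (f := fun y => (q.1 : ℂ) + l y) q.2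
          (by simpa only [l0, add_zero] using aΨ.differentiableAt)
          (al.differentiableAt.const_add _)
      have d2 : DifferentiableAt ℂ (fun y => Fl g Ω κ (q.1, y)) q.2 :=
        d1.congr_of_eventuallyEq ((t.eventually h).mono fun y h' => h'.2)
      have d3 := HasDerivAt.comp (h₂ := g) (h := fun y => Fl g Ω κ (q.1, y)) q.2 dg d2.hasDerivAt
      have d4 : HasDerivAt (fun y => cexp (-(κ * q.1)) * g y) (cexp (-(κ * q.1)) * deriv g q.2)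
          q.2 := (hg.differentiableAt (hΩ.mem_nhds hy)).hasDerivAt.const_mul _
      have d5 := d3.unique (d4.congr_of_eventuallyEq
        ((t.eventually h).mono fun y h' => (flow_val h1 hΩ hg h'.1).2.2))
      refine d2.hasDerivAt.congr_deriv ?_
      rw [eq_div_iff m2, ← d5, mul_comm]
    · have t : Tendsto (fun s : ℝ => (s, q.2)) (𝓝 q.1) (𝓝 q) :=
        (Continuous.prodMk_left q.2).tendsto q.1
      have d1 := aΨ.differentiableAt.hasDerivAt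
      have d3 := HasDerivAt.comp (h₂ := g) (h := Ψ) (q.1 : ℂ) (e0 ▸ dg) d1
      have d4 : HasDerivAt (fun z : ℂ => cexp (-(κ * z)) * g q.2)
          (cexp (-(κ * q.1)) * -(κ * 1) * g q.2) (q.1 : ℂ) :=
        (((hasDerivAt_id (q.1 : ℂ)).const_mul κ).neg.cexp).mul_const _
      have d5 := d3.unique (d4.congr_of_eventuallyEq hv)
      have d6 := d1.comp_ofReal.congr_of_eventuallyEq (f₁ := fun s => Fl g Ω κ (s, q.2))
        ((t.eventually h).mono fun s h' => by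
          have := h'.2
          simp only [l0, add_zero] at this
          exact this)
      refine d6.congr_deriv ?_
      rw [m3]
      rw [← e0] at d5
      field_simp
      linear_combination d5

end Vale.Agent.P097F.T
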