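import Vale.Agent.P097F.T.Defs

/-!
# P097F.T: a shielded descent line of finite energy is infinite and has finite length
-/

set_option linter.all false

noncomputable section

namespace Vale.Agent.P097F.T

open Filter Topology Set Metric MeasureTheory Complex
open scoped ENNReal

lemma good_ext (h1 : S_TUBE) {g : ℂ → ℂ} {κ y : ℂ} {p : ℝ → ℂ} {τ : ℝ}
    (hg : DifferentiableOn ℂ g LH) (h0 : 0 ≤ τ) (h : Tr g LH κ y p τ) :
    ∃ τ' > τ, ∃ q, Tr g LH κ y q τ' := by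
  obtain ⟨ρ, Ψ, ρ0, d, e, m⟩ := h1 g LH κ y p τ isOpen_LH hg h0 h
  have k : ∀ s ∈ Icc 0 (τ + ρ / 2), (s : ℂ) ∈ Nb τ ρ := fun s hs => by
    refine ⟨?_, ?_, ?_⟩ <;> simp <;> linarith [hs.1, hs.2]
  exact ⟨τ + ρ / 2, by linarith, fun s => Ψ s, d.continuousOn.comp continuous_ofReal.continuousOn k,
    (e 0 ⟨le_rfl, h0⟩).trans h.zero, fun s hs => (m _ (k s hs)).1, fun s hs => (m _ (k s hs)).2.1,
    fun s hs => (m _ (k s hs)).2.2⟩

theorem good (h1 : S_TUBE) (h2 : S_FLOW) (h3 : S_GROW) : S_GOOD := by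
  intro g κ y τ₀ hg hκ τ0 hy g0 hS hE hc
  have κ0 : κ ≠ 0 := fun e => by simp [e] at hκ
  obtain ⟨fl, -, -, -, -, fd⟩ := h2 g LH κ isOpen_LH hg κ0
  have ag : AnalyticOnNhd ℂ g LH := hg.analyticOnNhd isOpen_LH
  let p : ℝ → ℂ := fun s => Fl g LH κ (s, y)
  let v : ℝ → ℂ := fun s => -(κ * (g (p s) / deriv g (p s)))
  have trp : ∀ τ, 0 ≤ τ → ∀ q, Tr g LH κ y q τ → Tr g LH κ y p τ := fun τ h0 q hq => by
    have e : ∀ s ∈ Icc 0 τ, p s = q s := fl y q τ hq
    exact ⟨hq.cont.congr e, (e 0 ⟨le_rfl, h0⟩).trans hq.zero, fun s hs => e s hs ▸ hq.mem s hs,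
      fun s hs => e s hs ▸ hq.reg s hs, fun s hs => e s hs ▸ hq.val s hs⟩
  have t0 : Tr g LH κ y p 0 := trp 0 le_rfl (fun _ => y) ⟨continuousOn_const, rfl, fun _ _ => hy,
    fun _ _ e => hc 0 le_rfl y hy e (by simp), fun s hs => by
      simp [le_antisymm hs.2 hs.1]⟩
  have ext : ∀ τ, 0 ≤ τ → Tr g LH κ y p τ → ∃ τ' > τ, Tr g LH κ y p τ' := fun τ h0 h =>
    let ⟨τ', k, q, hq⟩ := good_ext h1 hg h0 h
    ⟨τ', k, trp τ' (h0.trans k.le) q hq⟩
  have dp : ∀ s, 0 < s → Tr g LH κ y p s → HasDerivAt p (v s) s := fun s s0 h =>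
    (fd (s, y) ⟨s0, g0, p, h⟩).2
  have gr : ∀ S : Set ℝ, (S = Ioi 0 ∨ ∃ τ, S = Ioo 0 τ) → (∀ s ∈ S, Tr g LH κ y p s) →
      ContinuousOn v S ∧ IntegrableOn (fun s => Real.exp (-s) * ‖v s‖) S := by
    intro S hS' hT
    have S0 : ∀ s ∈ S, 0 < s := fun s hs => by
      rcases hS' with rfl | ⟨τ, rfl⟩
      exacts [hs, hs.1]
    have Sm : MeasurableSet S := by
      rcases hS' with rfl | ⟨τ, rfl⟩
      exacts [measurableSet_Ioi, measurableSet_Ioo]
    have cp : ContinuousOn p (insert 0 S) := fun s hs => by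
      have s0 : 0 ≤ s := by
        rcases hs with rfl | hs
        exacts [le_rfl, (S0 s hs).le]
      obtain ⟨τ', k, h⟩ := ext s s0 (by
        rcases hs with rfl | hs
        exacts [t0, hT s hs])
      refine (h.cont s ⟨s0, k.le⟩).mono_of_mem_nhdsWithin ?_
      filter_upwards [self_mem_nhdsWithin, mem_nhdsWithin_of_mem_nhds (Iio_mem_nhds k)] with u u1 u2
      refine ⟨?_, le_of_lt u2⟩
      rcases u1 with rfl | u1
      exacts [le_rfl, (S0 u u1).le]
    have mp : ∀ s ∈ S, p s ∈ LH := fun s hs => (hT s hs).mem s ⟨(S0 s hs).le, le_rfl⟩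
    have cp' := cp.mono (subset_insert 0 S)
    have cv : ContinuousOn v S := (continuousOn_const.mul ((ag.continuousOn.comp cp' mp).div
      (ag.deriv.continuousOn.comp cp' mp) fun s hs =>
        (hT s hs).reg s ⟨(S0 s hs).le, le_rfl⟩)).neg
    refine ⟨cv, h3 p v S hS' cp cv (fun s hs => ⟨mp s hs, dp s (S0 s hs) (hT s hs)⟩) ?_⟩
    calc _ ≤ ∫⁻ s in S, ENNReal.ofReal (‖κ‖ ^ 2) * en g LH κ (s, y) :=
          setLIntegral_mono' Sm fun s hs => by
            have hd : (s, y) ∈ Dom g LH κ := ⟨S0 s hs, g0, p, hT s hs⟩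
            rw [en, indicator_of_mem hd, ← ENNReal.ofReal_mul (by positivity)]
            refine ENNReal.ofReal_le_ofReal (le_of_eq ?_)
            simp only [v, p, norm_neg, norm_mul]
            ring
      _ = ENNReal.ofReal (‖κ‖ ^ 2) * ∫⁻ s in S, en g LH κ (s, y) :=
          lintegral_const_mul' _ _ ENNReal.ofReal_ne_top
      _ < ⊤ := ENNReal.mul_lt_top ENNReal.ofReal_lt_top
          ((setLIntegral_le_lintegral _ _).trans_lt hE)
  have all : ∀ τ, Tr g LH κ y p τ := by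
    by_contra hn
    obtain ⟨τ₁, hτ₁⟩ := not_forall.1 hn
    let A : Set ℝ := {τ | Tr g LH κ y p τ}
    have bd : BddAbove A := ⟨τ₁, fun τ h => not_lt.1 fun k => hτ₁ (Tr.mono h k.le)⟩
    set T := sSup A with hT
    obtain ⟨τ', τ'0, h'⟩ := ext 0 le_rfl t0
    have T0 : 0 < T := τ'0.trans_le (le_csSup bd h')
    have lt : ∀ s < T, Tr g LH κ y p s := fun s hs =>
      let ⟨a, ha, k⟩ := exists_lt_of_lt_csSup ⟨0, t0⟩ hs
      Tr.mono ha k.le
    obtain ⟨cv, iv⟩ := gr (Ioo 0 T) (Or.inr ⟨T, rfl⟩) fun s hs => lt s hs.2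
    have iv' : IntegrableOn v (Ioo 0 T) := by
      refine Integrable.mono' (iv.const_mul (Real.exp T)) (cv.aestronglyMeasurable measurableSet_Ioo)
        ((ae_restrict_iff' measurableSet_Ioo).2 (ae_of_all _ fun s hs => ?_))
      rw [← mul_assoc, ← Real.exp_add]
      exact le_mul_of_one_le_left (norm_nonneg _) (Real.one_le_exp (by linarith [hs.2]))
    have iv2 : IntegrableOn v (Icc 0 T) := (integrableOn_Icc_iff_integrableOn_Ioo).2 iv'
    let q : ℝ → ℂ := fun s => y + ∫ u in (0 : ℝ)..s, v u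
    have cq : ContinuousOn q (Icc 0 T) := by
      have := intervalIntegral.continuousOn_primitive_interval (μ := volume) (f := v) (a := 0)
        (b := T) (by rwa [uIcc_of_le T0.le])
      rw [uIcc_of_le T0.le] at this
      exact continuousOn_const.add this
    have eq : ∀ s ∈ Ico 0 T, q s = p s := fun s hs => by
      have := intervalIntegral.integral_eq_sub_of_hasDerivAt_of_le hs.1 (lt s hs.2).cont
        (fun u hu => dp u hu.1 (lt u (hu.2.trans hs.2)))
        ((iv2.mono_set (by rw [uIcc_of_le hs.1]; exact Icc_subset_Icc_right hs.2.le)).intervalIntegrable)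
      simp only [q, this, t0.zero]
      ring
    have lim : Tendsto q (𝓝[<] T) (𝓝 (q T)) :=
      (cq T ⟨T0.le, le_rfl⟩).mono_of_mem_nhdsWithin (Icc_mem_nhdsLT T0)
    have ev : ∀ᶠ s in 𝓝[<] T, s ∈ Ico 0 T := Ico_mem_nhdsLT T0
    have m1 : (q T).im ≤ -τ₀ := le_of_tendsto ((continuous_im.tendsto _).comp lim)
      (ev.mono fun s hs => by
        show (q s).im ≤ -τ₀
        rw [eq s hs]
        exact hS p s hs.1 (lt s hs.2))
    have m2 : q T ∈ LH := show (q T).im < 0 by linarith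
    have m3 : g (q T) = cexp (-(κ * T)) * g y := tendsto_nhds_unique_of_eventuallyEq
      ((ag _ m2).continuousAt.tendsto.comp lim)
      ((Continuous.tendsto (f := fun s : ℝ => cexp (-(κ * s)) * g y) (by fun_prop) T).mono_left
        nhdsWithin_le_nhds)
      (ev.mono fun s hs => by
        show g (q s) = _
        rw [eq s hs]
        exact (lt s hs.2).val s ⟨hs.1, le_rfl⟩)
    have tq : Tr g LH κ y q T := by
      refine ⟨cq, by simp [q], fun s hs => ?_, fun s hs => ?_, fun s hs => ?_⟩ <;>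
        rcases hs.2.eq_or_lt with rfl | k
      · exact m2
      · exact eq s ⟨hs.1, k⟩ ▸ (lt s k).mem s ⟨hs.1, le_rfl⟩
      · exact fun e => hc _ T0.le _ m2 e m3
      · exact eq s ⟨hs.1, k⟩ ▸ (lt s k).reg s ⟨hs.1, le_rfl⟩
      · exact m3
      · exact eq s ⟨hs.1, k⟩ ▸ (lt s k).val s ⟨hs.1, le_rfl⟩
    obtain ⟨T', k, h⟩ := ext T T0.le (trp T T0.le q tq)
    exact absurd (le_csSup bd h) (not_le.2 k)
  refine ⟨p, all, ?_⟩
  obtain ⟨-, iv⟩ := gr (Ioi 0) (Or.inl rfl) fun s _ => all s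
  refine IntegrableOn.congr_fun (iv.const_mul (‖g y‖ / ‖κ‖)) (fun s hs => ?_) measurableSet_Ioi
  have e := (all s).val s ⟨le_of_lt hs, le_rfl⟩
  have n1 : ‖g (p s)‖ = Real.exp (-s) * ‖g y‖ := by
    rw [e, norm_mul, Complex.norm_exp]
    simp [hκ]
  have k0 : ‖κ‖ ≠ 0 := norm_ne_zero_iff.2 κ0
  simp only [v, norm_neg, norm_mul, norm_div, norm_pow]
  rw [sq]
  nth_rewrite 2 [n1]
  field_simp

end Vale.Agent.P097F.T
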