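import Vale.Agent.P097F.T.Defs

/-!
# P097F.T: finite energy gives finite weighted length
-/

set_option linter.all false

noncomputable section

namespace Vale.Agent.P097F.T

open Filter Topology Set Metric MeasureTheory

theorem grow : S_GROW := by
  intro p v S hS cp cv hd hE
  have ms : MeasurableSet S := by
    rcases hS with h | ⟨τ, h⟩ <;> rw [h]
    exacts [measurableSet_Ioi, measurableSet_Ioo]
  have s0 : S ⊆ Ioi 0 := by
    rcases hS with h | ⟨τ, h⟩ <;> rw [h]
    exact Ioo_subset_Ioi_self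
  have sub : ∀ s ∈ S, Ioc 0 s ⊆ S := by
    rcases hS with h | ⟨τ, h⟩ <;> rw [h]
    exacts [fun s _ => Ioc_subset_Ioi_self, fun s hs x hx => ⟨hx.1, hx.2.trans_lt hs.2⟩]
  have w1 : ∀ s ∈ S, 1 ≤ 1 - (p s).im := fun s hs => by linarith [(hd s hs).1]
  have wq : ∀ s ∈ S, ‖v s‖ ^ 2 * wt (p s) = (‖v s‖ * (1 - (p s).im) ^ (-(2 / 3 : ℝ))) ^ 2 :=
    fun s hs => by
      rw [wt, abs_of_neg (hd s hs).1, ← sub_eq_add_neg, mul_pow,
        ← Real.rpow_mul_natCast (by linarith [w1 s hs])]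
      norm_num
  have cw : ContinuousOn (fun s => 1 - (p s).im) (insert 0 S) :=
    continuousOn_const.sub (Complex.continuous_im.comp_continuousOn cp)
  obtain ⟨F, hF⟩ : ∃ F : ℝ → ℝ, F = fun s => Real.exp (-s / 2) * (‖v s‖ ^ 2 * wt (p s)) := ⟨_, rfl⟩
  have F0 : ∀ s, 0 ≤ F s := fun s => by rw [hF]; unfold wt; positivity
  have Fq : ∀ s ∈ S, F s = Real.exp (-s / 2) * (‖v s‖ * (1 - (p s).im) ^ (-(2 / 3 : ℝ))) ^ 2 :=
    fun s hs => by rw [hF, ← wq s hs]
  have cF : ContinuousOn F S := by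
    refine ContinuousOn.congr (ContinuousOn.mul (by fun_prop) ((cv.norm.mul
      ((cw.mono (subset_insert _ _)).rpow_const fun s hs => .inl ?_)).pow 2)) Fq
    linarith [w1 s hs]
  have iF : IntegrableOn F S := ⟨cF.aestronglyMeasurable ms,
    (hasFiniteIntegral_iff_ofReal (.of_forall F0)).2 (by rw [hF]; exact hE)⟩
  have E0 : 0 ≤ ∫ s in S, F s := integral_nonneg F0
  obtain ⟨C, hC⟩ : ∃ C : ℝ, ∀ s ∈ S, (1 - (p s).im) ^ (1 / 3 : ℝ) ≤ C * Real.exp (s / 4) := by
    refine ⟨|(1 - (p 0).im) ^ (1 / 3 : ℝ)| + 1 + (∫ s in S, F s) / 2, fun s hs => ?_⟩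
    have p0 : (0 : ℝ) < s := s0 hs
    have l1 : 1 ≤ Real.exp (s / 4) := Real.one_le_exp (by linarith)
    have i1 : IntegrableOn F (Ioc 0 s) := iF.mono_set (sub s hs)
    have k := intervalIntegral.sub_le_integral_of_hasDeriv_right_of_le p0.le
      (g := fun x => (1 - (p x).im) ^ (1 / 3 : ℝ) - Real.exp (x / 2) / Real.exp (s / 4))
      (g' := fun x => -(v x).im * (1 / 3) * (1 - (p x).im) ^ (1 / 3 - 1 : ℝ) -
        Real.exp (x / 2) * (1 / 2) / Real.exp (s / 4))
      (φ := fun x => Real.exp (s / 4) / 2 * F x)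
      (((cw.mono fun x hx => (eq_or_lt_of_le hx.1).elim (fun e => .inl e.symm)
        fun e => .inr (sub s hs ⟨e, hx.2⟩)).rpow_const fun _ _ => .inr (by norm_num)).sub
          (by fun_prop))
      (fun x hx => by
        have m := sub s hs ⟨hx.1, hx.2.le⟩
        have d1 : HasDerivAt (fun x => (p x).im) (v x).im x :=
          Complex.imCLM.hasFDerivAt.comp_hasDerivAt x (hd x m).2
        exact (((d1.const_sub 1).rpow_const (.inl (by linarith [w1 x m]))).sub
          (((hasDerivAt_id' x).div_const 2).exp.div_const _)).hasDerivWithinAt)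
      (((integrableOn_Icc_iff_integrableOn_Ioc (by simp)).2 i1).const_mul _)
      (fun x hx => by
        have m := sub s hs ⟨hx.1, hx.2.le⟩
        have e : (1 / 3 - 1 : ℝ) = -(2 / 3) := by norm_num
        have r0 : 0 ≤ (1 - (p x).im) ^ (-(2 / 3 : ℝ)) := Real.rpow_nonneg (by linarith [w1 x m]) _
        have a1 : -(v x).im ≤ ‖v x‖ := (neg_le_abs _).trans (Complex.abs_im_le_norm _)
        have a2 := mul_le_mul_of_nonneg_right a1 r0
        have a3 := mul_nonneg (norm_nonneg (v x)) r0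
        rw [e, Fq x m]
        generalize ‖v x‖ * (1 - (p x).im) ^ (-(2 / 3 : ℝ)) = q at *
        have a4 : Real.exp (-x / 2) = (Real.exp (x / 2))⁻¹ := by rw [← Real.exp_neg, neg_div]
        rw [a4]
        have b0 := Real.exp_pos (x / 2)
        generalize Real.exp (x / 2) = b at *
        generalize Real.exp (s / 4) = l at *
        have l0 : 0 < l := by linarith
        have a5 : l / 2 * (b⁻¹ * q ^ 2) + b * (1 / 2) / l - q = (l * q - b) ^ 2 / (2 * l * b) := by
          field_simp; ring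
        have a6 : 0 ≤ (l * q - b) ^ 2 / (2 * l * b) := by positivity
        linarith)
    rw [intervalIntegral.integral_const_mul, intervalIntegral.integral_of_le p0.le] at k
    have a1 : ∫ x in Ioc 0 s, F x ≤ ∫ x in S, F x :=
      setIntegral_mono_set iF (.of_forall F0) (sub s hs).eventuallyLE
    have a2 : Real.exp (s / 2) / Real.exp (s / 4) = Real.exp (s / 4) := by
      rw [← Real.exp_sub]; congr 1; ring
    have a3 : 0 ≤ Real.exp (0 / 2) / Real.exp (s / 4) := by positivity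
    have a4 := le_abs_self ((1 - (p 0).im) ^ (1 / 3 : ℝ))
    have a5 := mul_le_mul_of_nonneg_left l1 (abs_nonneg ((1 - (p 0).im) ^ (1 / 3 : ℝ)))
    have a6 := mul_le_mul_of_nonneg_left a1 (by positivity : 0 ≤ Real.exp (s / 4) / 2)
    simp only [a2] at k
    linarith
  have iG : IntegrableOn (fun s => C ^ 2 * (F s + Real.exp (-(1 / 2) * s))) S :=
    (iF.add ((exp_neg_integrableOn_Ioi 0 (by norm_num : (0 : ℝ) < 1 / 2)).mono_set s0)).const_mul _
  refine iG.mono' ((ContinuousOn.mul (by fun_prop) cv.norm).aestronglyMeasurable ms)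
    (ae_restrict_of_forall_mem ms fun s hs => ?_)
  have w0 : 0 < 1 - (p s).im := by linarith [w1 s hs]
  have u0 : 0 ≤ (1 - (p s).im) ^ (1 / 3 : ℝ) := Real.rpow_nonneg w0.le _
  have r0 : 0 ≤ (1 - (p s).im) ^ (-(2 / 3 : ℝ)) := Real.rpow_nonneg w0.le _
  have a1 : ((1 - (p s).im) ^ (1 / 3 : ℝ)) ^ 2 * (1 - (p s).im) ^ (-(2 / 3 : ℝ)) = 1 := by
    rw [← Real.rpow_mul_natCast w0.le, ← Real.rpow_add w0]
    norm_num
  have a2 := pow_le_pow_left₀ u0 (hC s hs) 2
  have a3 : Real.exp (-s) * Real.exp (s / 4) ^ 2 = Real.exp (-s / 2) := by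
    rw [← Real.exp_nat_mul, ← Real.exp_add]; congr 1; push_cast; ring
  have a4 : Real.exp (-(1 / 2) * s) = Real.exp (-s / 2) := by congr 1; ring
  have q0 := mul_nonneg (norm_nonneg (v s)) r0
  rw [Real.norm_of_nonneg (by positivity), Fq s hs, a4]
  calc Real.exp (-s) * ‖v s‖ = Real.exp (-s) * ((1 - (p s).im) ^ (1 / 3 : ℝ)) ^ 2 *
        (‖v s‖ * (1 - (p s).im) ^ (-(2 / 3 : ℝ))) := by
        linear_combination (-(Real.exp (-s) * ‖v s‖)) * a1
    _ ≤ Real.exp (-s) * (C * Real.exp (s / 4)) ^ 2 *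
        (‖v s‖ * (1 - (p s).im) ^ (-(2 / 3 : ℝ))) := by gcongr
    _ = C ^ 2 * (Real.exp (-s / 2) * (‖v s‖ * (1 - (p s).im) ^ (-(2 / 3 : ℝ)))) := by
        rw [← a3]; ring
    _ ≤ _ := by
        generalize ‖v s‖ * (1 - (p s).im) ^ (-(2 / 3 : ℝ)) = q at *
        refine mul_le_mul_of_nonneg_left ?_ (sq_nonneg C)
        have := mul_nonneg (Real.exp_pos (-s / 2)).le (by nlinarith : 0 ≤ q ^ 2 + 1 - q)
        linarith

end Vale.Agent.P097F.T
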