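import Vale.Agent.P097F.T.Defs

/-! P097F.T: lower semicontinuity of the energy -/

set_option linter.all false

noncomputable section

namespace Vale.Agent.P097F.T

open Filter Topology Set Metric MeasureTheory Complex
open scoped ENNReal

variable {G : ℕ → ℂ → ℂ} {N T : ℕ → ℝ} {g : ℂ → ℂ} {κ : ℂ}

theorem lsc_pt (C : Cv atTop G N T g) {z : ℂ} (hz : z ∈ LH) {w : ℕ → ℂ}
    (hw : Tendsto w atTop (𝓝 z)) : Tendsto (fun n => G n (w n)) atTop (𝓝 (g z)) ∧
      Tendsto (fun n => deriv (G n) (w n)) atTop (𝓝 (deriv g z)) := by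
  have h0 : 0 < -z.im := neg_pos.2 hz
  have hs : ∀ v ∈ ball z (-z.im), |v.re| < |z.re| + -z.im ∧ 2 * z.im < v.im ∧ v.im < 0 := by
    intro v hv
    rw [mem_ball, dist_eq_norm] at hv
    have a := (abs_re_le_norm (v - z)).trans_lt hv
    have b := (abs_im_le_norm (v - z)).trans_lt hv
    rw [sub_re] at a
    rw [sub_im, abs_lt] at b
    have c := abs_sub_abs_le_abs_sub v.re z.re
    exact ⟨by linarith, by linarith [b.1], by linarith [b.2]⟩
  have hB : ball z (-z.im) ⊆ LH := fun v hv => (hs v hv).2.2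
  have hd : ∀ᶠ n in atTop, DifferentiableOn ℂ (G n) (ball z (-z.im)) := by
    filter_upwards [C.hol, C.hN.eventually_ge_atTop (|z.re| + -z.im),
      C.hT.eventually_ge_atTop (-(2 * z.im))] with n h1 h2 h3
    exact h1.mono fun v hv => ⟨(hs v hv).1.trans_le h2, by linarith [(hs v hv).2.1], (hs v hv).2.2⟩
  have hn : 𝓝[ball z (-z.im)] z = 𝓝 z := nhdsWithin_eq_nhds.2 (ball_mem_nhds z h0)
  have ha : AnalyticAt ℂ g z := C.hg.analyticAt (isOpen_LH.mem_nhds hz)
  have l1 := C.lim.mono hB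
  exact ⟨l1.tendsto_comp ha.continuousAt.continuousWithinAt (mem_ball_self h0) (hn ▸ hw),
    (l1.deriv hd isOpen_ball).tendsto_comp ha.deriv.continuousAt.continuousWithinAt
      (mem_ball_self h0) (hn ▸ hw)⟩

theorem lsc_wt : Continuous wt :=
  (continuous_const.add continuous_im.abs).rpow_const fun y =>
    Or.inl (add_pos_of_pos_of_nonneg one_pos (abs_nonneg y.im)).ne'

theorem lsc_dom {Ω : Set ℂ} {q : ℝ × ℂ} (hq : q ∈ Dom g Ω κ) : q.2 ∈ Ω ∧ deriv g q.2 ≠ 0 := by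
  obtain ⟨h0, -, p, hp⟩ := hq
  have a := hp.mem 0 ⟨le_rfl, h0.le⟩
  have b := hp.reg 0 ⟨le_rfl, h0.le⟩
  rw [hp.zero] at a b
  exact ⟨a, b⟩

theorem lsc_term (h3 : S_STAB) (hκ : κ ≠ 0) (C : Cv atTop G N T g) (F : Flow g LH κ)
    (c : ℝ) (q : ℝ × ℂ) : ENNReal.ofReal c * (mu g q.2 * en g LH κ q) ≤ liminf (fun n =>
      ENNReal.ofReal c * (mu (G n) q.2 * en (G n) (Bx (N n) (T n)) κ q)) atTop := by
  by_cases hq : q ∈ Dom g LH κ
  swap
  · rw [en, indicator_of_notMem hq, mul_zero, mul_zero]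
    exact zero_le
  obtain ⟨e1, e2⟩ := h3 atTop G N T g κ hκ C q hq
  have hy := lsc_pt C (lsc_dom hq).1 tendsto_const_nhds
  obtain ⟨h0, hg0, p, hp⟩ := id hq
  have hz : Fl g LH κ q = p q.1 := F.1 _ p _ hp q.1 ⟨h0.le, le_rfl⟩
  have hz1 : Fl g LH κ q ∈ LH := hz ▸ hp.mem _ ⟨h0.le, le_rfl⟩
  have hz2 : deriv g (Fl g LH κ q) ≠ 0 := hz ▸ hp.reg _ ⟨h0.le, le_rfl⟩
  have hw := lsc_pt C hz1 e2
  have t1 := ENNReal.tendsto_ofReal ((hy.2.div hy.1 hg0).norm.pow 2)
  have t2 := ENNReal.tendsto_ofReal ((((hw.1.div hw.2 hz2).norm.pow 2).mul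
    ((lsc_wt.tendsto _).comp e2)).const_mul (Real.exp (-q.1 / 2)))
  have t3 := ENNReal.Tendsto.const_mul (a := ENNReal.ofReal c) (ENNReal.Tendsto.mul t1
    (Or.inr ENNReal.ofReal_ne_top) t2 (Or.inr ENNReal.ofReal_ne_top))
    (Or.inr ENNReal.ofReal_ne_top)
  rw [en, indicator_of_mem hq]
  refine (Tendsto.liminf_eq (t3.congr' ?_)).ge
  filter_upwards [e1] with n hn
  rw [en, indicator_of_mem hn]
  rfl

theorem lsc_int (Ω : Set ℂ) (c : ℝ) (y : ℂ) : ENNReal.ofReal c * (mu g y * En g Ω κ y) =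
    ∫⁻ s, ENNReal.ofReal c * (mu g y * en g Ω κ (s, y)) := by
  rw [lintegral_const_mul' _ _ ENNReal.ofReal_ne_top,
    lintegral_const_mul' (mu g y) _ ENNReal.ofReal_ne_top, En]

theorem lsc (h1 : S_FLOW) (h2 : S_MEAS) (h3 : S_STAB) (h4 : S_SEQ) : Spec_LSC := by
  intro l G N T g κ M hκ hl C hT
  obtain ⟨φ, hφ, hd, C'⟩ := h4 l G N T g _ hl C hT
  have F := h1 g LH κ isOpen_LH C.hg hκ
  have m0 := h2 g LH κ isOpen_LH C.hg F
  have mk := fun k => h2 _ _ κ (isOpen_Bx _ _) (hd k) (h1 _ _ κ (isOpen_Bx _ _) (hd k) hκ)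
  have mw : Measurable fun y : ℂ => ENNReal.ofReal (Real.exp (-|y.re - 0|)) :=
    ENNReal.measurable_ofReal.comp (Continuous.measurable (by fun_prop))
  have key : Lam g LH κ 0 ≤ ENNReal.ofReal M := by
    calc Lam g LH κ 0 ≤ ∫⁻ y, liminf (fun k => ENNReal.ofReal (Real.exp (-|y.re - 0|)) *
          (mu (G (φ k)) y * En (G (φ k)) (Bx (N (φ k)) (T (φ k))) κ y)) atTop := by
          refine lintegral_mono fun y => ?_
          simp only [lsc_int]
          refine (lintegral_mono fun s => lsc_term h3 hκ C' F _ (s, y)).trans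
            (lintegral_liminf_le fun k => ?_)
          exact ((mk k).1.comp measurable_prodMk_right).const_mul _
      _ ≤ liminf (fun k => Lam (G (φ k)) (Bx (N (φ k)) (T (φ k))) κ 0) atTop :=
          lintegral_liminf_le fun k => mw.mul (mk k).2
      _ ≤ ENNReal.ofReal M := liminf_le_of_frequently_le' (Frequently.of_forall hφ)
  filter_upwards [ae_lt_top (mw.mul m0.2) (key.trans_lt ENNReal.ofReal_lt_top).ne] with y hy
  by_contra h
  rw [not_lt, top_le_iff] at h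
  have hs : ∃ s, (s, y) ∈ Dom g LH κ := by
    by_contra hs
    rw [not_exists] at hs
    have : En g LH κ y = 0 := by
      rw [En, ← lintegral_zero (μ := (volume : Measure ℝ))]
      exact lintegral_congr fun s => indicator_of_notMem (hs s) _
    rw [this] at h
    exact ENNReal.zero_ne_top h
  obtain ⟨s, hs⟩ := hs
  have hm : mu g y ≠ 0 := by
    rw [mu, Ne, ENNReal.ofReal_eq_zero, not_le]
    exact pow_pos (norm_pos_iff.2 (div_ne_zero (lsc_dom hs).2 hs.2.1)) 2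
  have hw : ENNReal.ofReal (Real.exp (-|y.re - 0|)) ≠ 0 := by
    rw [Ne, ENNReal.ofReal_eq_zero, not_le]
    exact Real.exp_pos _
  rw [Pi.mul_apply, h, ENNReal.mul_top hm, ENNReal.mul_top hw] at hy
  exact lt_irrefl _ hy

end Vale.Agent.P097F.T
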