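import Vale.Agent.P097F.T.Defs

/-!
# P097F.T, row 5204: measurability
-/

set_option linter.all false

noncomputable section

namespace Vale.Agent.P097F.T

open Filter Topology Set Metric MeasureTheory Complex
open scoped ENNReal

theorem meas : S_MEAS := by
  classical
  intro g Ω κ hΩ hg hF
  have m0 : Measurable (Ω.piecewise g fun _ => 0) :=
    hg.continuousOn.measurable_piecewise continuousOn_const hΩ.measurableSet
  have m1 : Measurable fun y => ENNReal.ofReal (‖deriv g y / Ω.piecewise g (fun _ => 0) y‖ ^ 2) :=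
    (((measurable_deriv g).div m0).norm.pow_const 2).ennreal_ofReal
  have e : (fun q : ℝ × ℂ => mu g q.2 * en g Ω κ q) = fun q : ℝ × ℂ =>
      ENNReal.ofReal (‖deriv g q.2 / Ω.piecewise g (fun _ => 0) q.2‖ ^ 2) * en g Ω κ q := by
    funext q
    by_cases h : q ∈ Dom g Ω κ
    · obtain ⟨h0, -, p, hp⟩ := h
      have k : q.2 ∈ Ω := hp.zero ▸ hp.mem 0 ⟨le_rfl, h0.le⟩
      rw [piecewise_eq_of_mem _ _ _ k, mu]
    · rw [en, indicator_of_notMem h, mul_zero, mul_zero]
  have m2 : Measurable fun q : ℝ × ℂ => mu g q.2 * en g Ω κ q := by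
    rw [e]
    exact (m1.comp measurable_snd).mul hF.2.2.2.1
  refine ⟨m2, ?_⟩
  have e2 : (fun y => mu g y * En g Ω κ y) = fun y => ∫⁻ s : ℝ, mu g y * en g Ω κ (s, y) := by
    funext y
    exact (lintegral_const_mul' _ _ ENNReal.ofReal_ne_top).symm
  rw [e2]
  exact m2.lintegral_prod_left'

end Vale.Agent.P097F.T
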