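import Vale.Agent.P097F.T.Defs

/-!
# P097F.T, row 5213: typical spirals, critical values
-/

set_option linter.all false

noncomputable section

namespace Vale.Agent.P097F.T

open Filter Topology Set Metric MeasureTheory Complex

namespace Ray

theorem ne0 : ∀ᵐ J : ℂ, J ≠ 0 := by
  rw [ae_iff]
  simp

theorem line : volume {z : ℂ | z.im = 0} = 0 := by
  have h := Measure.addHaar_submodule (volume : Measure ℂ) (LinearMap.ker Complex.imLm) (by
    intro h
    have : I ∈ LinearMap.ker Complex.imLm := h ▸ Submodule.mem_top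
    simp at this)
  exact h

theorem one (a : ℂ) (E : Set ℂ) (ha : a ≠ 0) (hE : volume E = 0) : ∀ᵐ J : ℂ, a / J ∉ E := by
  have h : volume ((fun v : ℂ => a / v) '' (E \ {0})) = 0 :=
    addHaar_image_eq_zero_of_differentiableOn_of_addHaar_eq_zero volume
      (fun v hv => (((differentiableAt_const a).div differentiableAt_id
        (by simpa using hv.2)).restrictScalars ℝ).differentiableWithinAt)
      (measure_mono_null diff_subset hE)
  filter_upwards [ne0, measure_eq_zero_iff_ae_notMem.1 h] with J h0 hJ hm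
  exact hJ ⟨a / J, ⟨hm, by simpa using ⟨ha, h0⟩⟩, by field_simp⟩

theorem two (κ c v : ℂ) (hc : c ≠ 0) : ∀ᵐ J : ℂ, ∀ s : ℝ, c / J * cexp (-(κ * s)) ≠ v := by
  have h : volume ((fun z : ℂ => c * cexp (-(κ * z)) / v) '' {z : ℂ | z.im = 0}) = 0 :=
    addHaar_image_eq_zero_of_differentiableOn_of_addHaar_eq_zero volume
      (fun z _ => (DifferentiableAt.restrictScalars ℝ (𝕜' := ℂ) (by fun_prop)).differentiableWithinAt)
      line
  filter_upwards [ne0, measure_eq_zero_iff_ae_notMem.1 h] with J h0 hJ s hs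
  have e0 := Complex.exp_ne_zero (-(κ * s))
  refine hJ ⟨s, by simp, ?_⟩
  show c * cexp (-(κ * s)) / v = J
  rw [← hs]
  field_simp

end Ray

theorem ray : S_RAY := by
  intro κ c E V hc hE hV
  have m : MeasurableSet {x : ℂ × ℝ | c / x.1 * cexp (-(κ * x.2)) ∉ toMeasurable volume E} :=
    ((measurableSet_toMeasurable volume E).preimage
      (f := fun x : ℂ × ℝ => c / x.1 * cexp (-(κ * x.2))) (by fun_prop)).compl
  have h1 : ∀ᵐ J : ℂ, ∀ᵐ s : ℝ, c / J * cexp (-(κ * s)) ∉ toMeasurable volume E := by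
    rw [Measure.ae_ae_comm (p := fun (J : ℂ) (s : ℝ) =>
      c / J * cexp (-(κ * s)) ∉ toMeasurable volume E) m]
    refine Eventually.of_forall fun s => ?_
    filter_upwards [Ray.one (c * cexp (-(κ * s))) (toMeasurable volume E)
      (mul_ne_zero hc (Complex.exp_ne_zero _)) (by rw [measure_toMeasurable, hE])] with J hJ
    rwa [div_mul_eq_mul_div]
  have h2 : ∀ᵐ J : ℂ, ∀ v ∈ V, ∀ s : ℝ, c / J * cexp (-(κ * s)) ≠ v :=
    (ae_ball_iff hV).2 fun v _ => Ray.two κ c v hc
  filter_upwards [h1, h2, Ray.ne0] with J k1 k2 k3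
  exact ⟨k1.mono fun s hs hm => hs (subset_toMeasurable _ _ hm), k3,
    fun s hm => k2 _ hm s rfl⟩

theorem crit : S_CRIT := by
  intro g hg
  have pc : IsPreconnected LH := (convex_halfSpace_im_lt 0).isPreconnected
  rcases (hg.analyticOnNhd isOpen_LH).deriv.eqOn_zero_or_eventually_ne_zero_of_preconnected pc
    with h | h
  · refine Set.Subsingleton.countable ?_
    rintro _ ⟨x, hx, rfl⟩ _ ⟨y, hy, rfl⟩
    exact isOpen_LH.is_const_of_deriv_eq_zero pc hg h hx.1 hy.1
  · refine Countable.image ?_ g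
    have d := isDiscrete_of_codiscreteWithin (s := {c | deriv g c = 0}) (U := LH) h
    exact ((HereditarilyLindelofSpace.isLindelof _).countable_of_isDiscrete d).mono
      fun c hc => Set.mem_inter hc.2 hc.1

end Vale.Agent.P097F.T
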