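import Vale.Agent.P097F.T.Defs

/-!
# P097F.T: most translates are typical
-/

set_option linter.all false

noncomputable section

namespace Vale.Agent.P097F.T

open Filter Topology Set Metric MeasureTheory Complex
open scoped ENNReal

namespace Sel

def K1 : ℝ≥0∞ := ∫⁻ a : ℝ, ENNReal.ofReal (Real.exp (-|a|))

def K2 : ℝ≥0∞ := ∫⁻ t : ℝ, ENNReal.ofReal ((1 + ‖t‖) ^ (-(4 / 3 : ℝ)))

theorem K1_lt : K1 < ⊤ := by
  have h : Integrable (fun a : ℝ => Real.exp (-|a|)) := by
    refine (integrable_inv_one_add_sq.const_mul 2).mono' (by fun_prop) (ae_of_all _ fun a => ?_)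
    rw [Real.norm_eq_abs, abs_of_pos (Real.exp_pos _), Real.exp_neg, ← div_eq_mul_inv,
      inv_eq_one_div, div_le_div_iff₀ (Real.exp_pos _) (by positivity)]
    have h1 := Real.quadratic_le_exp_of_nonneg (abs_nonneg a)
    rw [sq_abs] at h1
    linarith [abs_nonneg a]
  exact h.lintegral_lt_top

theorem K2_lt : K2 < ⊤ :=
  finite_integral_one_add_norm (E := ℝ) (μ := volume) (by rw [Module.finrank_self]; norm_num)

theorem box (Q T : ℝ) :
    ∫⁻ y in Bx Q T, ENNReal.ofReal (wt y) ≤ ENNReal.ofReal (2 * Q) * K2 := by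
  have hm : Measurable fun z : ℝ × ℝ => (Ioo (-Q) Q).indicator (fun _ => (1 : ℝ≥0∞)) z.1 *
      ENNReal.ofReal ((1 + ‖z.2‖) ^ (-(4 / 3 : ℝ))) :=
    ((measurable_const.indicator measurableSet_Ioo).comp measurable_fst).mul (by fun_prop)
  have e := Complex.volume_preserving_equiv_real_prod.lintegral_comp hm
  have e2 := lintegral_prod_mul (μ := (volume : Measure ℝ)) (ν := (volume : Measure ℝ))
    (f := (Ioo (-Q) Q).indicator (fun _ => (1 : ℝ≥0∞)))
    (g := fun t : ℝ => ENNReal.ofReal ((1 + ‖t‖) ^ (-(4 / 3 : ℝ))))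
    (measurable_const.indicator measurableSet_Ioo).aemeasurable (by fun_prop)
  rw [lintegral_indicator_const measurableSet_Ioo, Real.volume_Ioo, one_mul,
    show Q - -Q = 2 * Q by ring] at e2
  rw [← lintegral_indicator (isOpen_Bx Q T).measurableSet]
  refine le_trans (lintegral_mono fun y => ?_) (e.trans e2).le
  by_cases hy : y ∈ Bx Q T
  · rw [indicator_of_mem hy]
    have h1 : (Complex.measurableEquivRealProd y).1 ∈ Ioo (-Q) Q := abs_lt.1 hy.1
    rw [indicator_of_mem h1, one_mul]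
    exact le_rfl
  · rw [indicator_of_notMem hy]
    exact zero_le

theorem swap {F : ℂ → ℝ≥0∞} (hF : Measurable F) :
    Measurable (fun a : ℝ => ∫⁻ y, ENNReal.ofReal (Real.exp (-|y.re - a|)) * F y) ∧
      ∫⁻ a : ℝ, ∫⁻ y, ENNReal.ofReal (Real.exp (-|y.re - a|)) * F y = K1 * ∫⁻ y, F y := by
  have hm : Measurable (Function.uncurry fun (a : ℝ) (y : ℂ) =>
      ENNReal.ofReal (Real.exp (-|y.re - a|)) * F y) := by
    refine Measurable.mul ?_ (hF.comp measurable_snd)
    fun_prop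
  refine ⟨hm.lintegral_prod_right, ?_⟩
  rw [lintegral_lintegral_swap hm.aemeasurable, ← lintegral_const_mul _ hF]
  refine lintegral_congr fun y => ?_
  rw [lintegral_mul_const _ (by fun_prop)]
  congr 1
  exact lintegral_sub_left_eq_self (fun a : ℝ => ENNReal.ofReal (Real.exp (-|a|))) y.re

end Sel

theorem sel (h1 : S_FLOW) (h2 : S_MEAS) (h3 : S_AREA) (h4 : S_TRA) : Spec_SEL := by
  have e1 : Sel.K1 = ENNReal.ofReal Sel.K1.toReal := (ENNReal.ofReal_toReal Sel.K1_lt.ne).symm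
  have e2 : Sel.K2 = ENNReal.ofReal Sel.K2.toReal := (ENNReal.ofReal_toReal Sel.K2_lt.ne).symm
  have p1 : 0 ≤ Sel.K1.toReal := ENNReal.toReal_nonneg
  have p2 : 0 ≤ Sel.K2.toReal := ENNReal.toReal_nonneg
  generalize Sel.K1.toReal = k1 at e1 p1
  generalize Sel.K2.toReal = k2 at e2 p2
  have hC : 0 < 8 * k1 * k2 + 1 := by positivity
  refine ⟨8 * k1 * k2 + 1, hC, fun g κ T N P η hκ hN hNP hη hg => ?_⟩
  have hP : 0 < P := hN.trans_le hNP
  have ho := isOpen_Bx (2 * P) T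
  have hd : DifferentiableOn ℂ g (Bx (2 * P) T) := hg.mono fun y hy => hy.2
  have hfl := h1 g _ κ ho hd hκ
  have hme := (h2 g _ κ ho hd hfl).2
  have har := h3 g _ κ ho hd hfl hme
  obtain ⟨hm, hsw⟩ := Sel.swap hme
  have hsub : {a : ℝ | a ∈ Ico 0 P ∧ ¬ Typ (fun y => g (y + a)) κ N T ((8 * k1 * k2 + 1) / η)} ⊆
      {a : ℝ | ENNReal.ofReal ((8 * k1 * k2 + 1) / η) ≤ Lam g (Bx (2 * P) T) κ a} := by
    intro a ha
    refine (not_le.1 ha.2).le.trans (h4 g _ _ κ a hfl fun y hy => ⟨?_, ?_, ?_⟩)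
    · have h5 := abs_lt.1 hy.1
      rw [add_re, ofReal_re, abs_lt]
      constructor <;> linarith [ha.1.1, ha.1.2, h5.1, h5.2]
    · rw [add_im, ofReal_im, add_zero]
      exact hy.2.1
    · rw [add_im, ofReal_im, add_zero]
      exact hy.2.2
  have hpos : 0 < (8 * k1 * k2 + 1) / η := div_pos hC hη
  refine (measure_mono hsub).trans ((meas_ge_le_lintegral_div hm.aemeasurable
    (ENNReal.ofReal_pos.2 hpos).ne' ENNReal.ofReal_ne_top).trans ?_)
  refine ENNReal.div_le_of_le_mul ?_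
  rw [hsw]
  refine (mul_le_mul_right (har.trans (mul_le_mul_right (Sel.box (2 * P) T) 2)) _).trans ?_
  rw [e1, e2, ← ENNReal.ofReal_ofNat 2, ← ENNReal.ofReal_mul (by positivity),
    ← ENNReal.ofReal_mul (by positivity), ← ENNReal.ofReal_mul p1,
    ← ENNReal.ofReal_mul (by positivity)]
  refine ENNReal.ofReal_le_ofReal ?_
  have e3 : η * P * ((8 * k1 * k2 + 1) / η) = P * (8 * k1 * k2 + 1) := by field_simp
  rw [e3]
  nlinarith

end Vale.Agent.P097F.T
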