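import Vale.Agent.P097F.T.Defs

/-! # P097F.T: a sequence inside a filter -/

set_option linter.all false

noncomputable section

namespace Vale.Agent.P097F.T

open Filter Topology Set Metric

namespace SeqAux

/-- the exhausting compact sets -/
def Kc (k : ℕ) : Set ℂ := closedBall 0 k ∩ {y | y.im ≤ -(1 / ((k : ℝ) + 1))}

theorem Kc_cpt (k : ℕ) : IsCompact (Kc k) :=
  (isCompact_closedBall _ _).inter_right (isClosed_le Complex.continuous_im continuous_const)

theorem Kc_sub (k : ℕ) : Kc k ⊆ LH := fun y hy => by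
  have h : (0 : ℝ) < 1 / ((k : ℝ) + 1) := Nat.one_div_pos_of_nat
  have h2 : y.im ≤ -(1 / ((k : ℝ) + 1)) := hy.2
  show y.im < 0
  linarith

theorem openLH : IsOpen LH := isOpen_lt Complex.continuous_im continuous_const

theorem Kc_ev {K : Set ℂ} (hK : IsCompact K) (hs : K ⊆ LH) : ∀ᶠ k in atTop, K ⊆ Kc k := by
  rcases K.eq_empty_or_nonempty with rfl | hne
  · exact Eventually.of_forall fun k => empty_subset _
  obtain ⟨y, hy, hm⟩ := hK.exists_isMaxOn hne Complex.continuous_im.continuousOn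
  obtain ⟨R, hR⟩ := hK.isBounded.subset_closedBall 0
  have h0 : 0 < -y.im := neg_pos.2 (hs hy)
  filter_upwards [tendsto_natCast_atTop_atTop.eventually_ge_atTop R,
    tendsto_one_div_add_atTop_nhds_zero_nat.eventually (gt_mem_nhds h0)] with k h1 h2 z hz
  refine ⟨closedBall_subset_closedBall h1 (hR hz), ?_⟩
  have h3 : z.im ≤ y.im := hm hz
  show z.im ≤ _
  linarith

end SeqAux

open SeqAux

theorem seq : S_SEQ := by
  intro l G N T g A hl h hA
  have h1 : ∀ k : ℕ, ∃ n, n ∈ A ∧ DifferentiableOn ℂ (G n) (Bx (N n) (T n)) ∧ (k : ℝ) ≤ N n ∧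
      (k : ℝ) ≤ T n ∧ ∀ y ∈ Kc k, dist (g y) (G n y) < 1 / ((k : ℝ) + 1) := fun k => by
    have h2 := Metric.tendstoUniformlyOn_iff.1
      ((tendstoLocallyUniformlyOn_iff_forall_isCompact openLH).1 h.lim _ (Kc_sub k) (Kc_cpt k))
      _ (Nat.one_div_pos_of_nat (n := k))
    have h3 : ∀ᶠ n in l, n ∈ A := hA
    exact (h3.and (h.hol.and ((h.hN.eventually_ge_atTop _).and
      ((h.hT.eventually_ge_atTop _).and h2)))).exists
  choose φ hA' hd hN hT hu using h1
  refine ⟨φ, hA', hd, tendsto_atTop_mono hN tendsto_natCast_atTop_atTop,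
    tendsto_atTop_mono hT tendsto_natCast_atTop_atTop, Eventually.of_forall hd, ?_, h.hg⟩
  refine (tendstoLocallyUniformlyOn_iff_forall_isCompact openLH).2 fun K hs hK => ?_
  refine Metric.tendstoUniformlyOn_iff.2 fun ε hε => ?_
  filter_upwards [Kc_ev hK hs,
    tendsto_one_div_add_atTop_nhds_zero_nat.eventually (gt_mem_nhds hε)] with k h1 h2 y hy
  exact (hu k y (h1 hy)).trans h2

end Vale.Agent.P097F.T
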