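import Vale.Agent.P097F.T.Defs

/-!
# P097F.T: stability of the flow under locally uniform convergence
-/

set_option linter.all false

noncomputable section

namespace Vale.Agent.P097F.T

open Filter Topology Set Metric MeasureTheory Complex

namespace Stab

lemma near {τ ρ ρ' δ : ℝ} {z w : ℂ} (hz : z ∈ Nb τ ρ) (h : ‖w - z‖ ≤ δ) (k : ρ + δ ≤ ρ') :
    w ∈ Nb τ ρ' := by
  have h1 := abs_le.1 ((abs_re_le_norm (w - z)).trans h)
  have h2 := abs_le.1 ((abs_im_le_norm (w - z)).trans h)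
  obtain ⟨z1, z2, z3⟩ := hz
  rw [abs_lt] at z3
  simp only [sub_re, sub_im] at h1 h2
  exact ⟨by linarith, by linarith, abs_lt.2 ⟨by linarith, by linarith⟩⟩

/-- the equation `a = s + u a` for a small holomorphic `u` -/
lemma fix {τ ρ δ : ℝ} {u : ℂ → ℂ} (hτ : 0 ≤ τ) (δ0 : 0 < δ) (hδ : δ ≤ ρ / 8)
    (hu : DifferentiableOn ℂ u (Nb τ ρ)) (hb : ∀ z ∈ Nb τ ρ, ‖u z‖ ≤ δ) (u0 : u 0 = 0) :
    ∃ a : ℝ → ℂ, ContinuousOn a (Icc 0 τ) ∧ a 0 = 0 ∧ ∀ s ∈ Icc 0 τ, ‖a s - s‖ ≤ δ ∧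
      a s ∈ Nb τ ρ ∧ a s = s + u (a s) ∧ ‖deriv u (a s)‖ ≤ 1 / 2 := by
  have hd : ∀ z ∈ Nb τ (ρ / 2), ‖deriv u z‖ ≤ 1 / 2 := fun z hz => by
    have sub : closedBall z (ρ / 4) ⊆ Nb τ ρ := fun w hw =>
      near hz (mem_closedBall_iff_norm.1 hw) (by linarith)
    have := norm_deriv_le_of_forall_mem_sphere_norm_le (c := z) (R := ρ / 4) (C := δ) (by linarith)
      (hu.diffContOnCl_ball sub) fun w hw => hb w (sub (sphere_subset_closedBall hw))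
    refine this.trans ?_
    rw [div_le_iff₀ (by linarith)]
    linarith
  have inc : Nb τ (ρ / 2) ⊆ Nb τ ρ := fun z hz => near (δ := 0) hz (by simp) (by linarith)
  have lip : ∀ z ∈ Nb τ (ρ / 2), ∀ w ∈ Nb τ (ρ / 2), ‖u w - u z‖ ≤ 1 / 2 * ‖w - z‖ :=
    fun z hz w hw => (convex_Nb τ (ρ / 2)).norm_image_sub_le_of_norm_deriv_le
      (fun x hx => (hu x (inc hx)).differentiableAt ((isOpen_Nb τ ρ).mem_nhds (inc hx))) hd hz hw
  have sub : ∀ s ∈ Icc 0 τ, ∀ w : ℂ, ‖w - (s : ℝ)‖ ≤ δ → w ∈ Nb τ (ρ / 2) := fun s hs w hw =>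
    near (mem_Nb (ρ := ρ / 4) (by linarith) hs) hw (by linarith)
  have ex : ∀ s : ℝ, ∃ w : ℂ, s ∈ Icc 0 τ → ‖w - s‖ ≤ δ ∧ w = s + u w := fun s => by
    by_cases hs : s ∈ Icc 0 τ
    · have mp : MapsTo (fun w => (s : ℂ) + u w) (closedBall (s : ℂ) δ) (closedBall (s : ℂ) δ) :=
        fun w hw => by
          simpa using hb w (inc (sub s hs w (mem_closedBall_iff_norm.1 hw)))
      have lp : LipschitzOnWith (1 / 2) (fun w => (s : ℂ) + u w) (closedBall (s : ℂ) δ) :=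
        LipschitzOnWith.of_dist_le_mul fun w hw z hz => by
          simpa [dist_eq_norm] using lip z (sub s hs z (mem_closedBall_iff_norm.1 hz)) w
            (sub s hs w (mem_closedBall_iff_norm.1 hw))
      obtain ⟨w, hw, fw, -⟩ := ContractingWith.exists_fixedPoint' (K := 1 / 2)
        isClosed_closedBall.isComplete mp ⟨by norm_num, lp.mapsToRestrict mp⟩
        (mem_closedBall_self δ0.le) (edist_ne_top _ _)
      exact ⟨w, fun _ => ⟨mem_closedBall_iff_norm.1 hw, fw.symm⟩⟩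
    · exact ⟨0, fun h => absurd h hs⟩
  choose a ha using ex
  have z0 : (0 : ℝ) ∈ Icc 0 τ := ⟨le_rfl, hτ⟩
  refine ⟨a, ?_, ?_, fun s hs => ⟨(ha s hs).1, inc (sub s hs _ (ha s hs).1), (ha s hs).2,
    hd _ (sub s hs _ (ha s hs).1)⟩⟩
  · refine (LipschitzOnWith.of_dist_le_mul (K := 2) fun s hs t ht => ?_).continuousOn
    have h1 := lip _ (sub t ht _ (ha t ht).1) _ (sub s hs _ (ha s hs).1)
    have h2 : a s - a t = ((s - t : ℝ) : ℂ) + (u (a s) - u (a t)) := by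
      push_cast
      linear_combination (ha s hs).2 - (ha t ht).2
    have h3 := norm_add_le ((s - t : ℝ) : ℂ) (u (a s) - u (a t))
    rw [← h2, norm_real] at h3
    rw [dist_eq_norm, dist_eq_norm]
    push_cast
    linarith
  · have h1 := lip 0 (sub 0 z0 0 (by simpa using δ0.le)) _ (sub 0 z0 _ (ha 0 z0).1)
    have h2 := (ha 0 z0).2
    rw [ofReal_zero, zero_add] at h2
    rw [u0, sub_zero, sub_zero, ← h2] at h1
    exact norm_le_zero_iff.1 (by linarith)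

/-- a trail of a nearby function inside the tube -/
lemma trail {G Ψ : ℂ → ℂ} {Ω : Set ℂ} {κ y : ℂ} {τ ρ δ η : ℝ} (κ0 : κ ≠ 0) (hτ : 0 ≤ τ)
    (δ0 : 0 < δ) (hδ : δ ≤ ρ / 8) (hΩ : IsOpen Ω) (hG : DifferentiableOn ℂ G Ω)
    (hΨ : DifferentiableOn ℂ Ψ (Nb τ ρ)) (mp : MapsTo Ψ (Nb τ ρ) Ω) (Ψ0 : Ψ 0 = y) (G0 : G y ≠ 0)
    (η1 : η ≤ 1 / 2) (η2 : 3 / 2 * η ≤ δ * ‖κ‖)
    (hb : ∀ z ∈ Nb τ ρ, ‖G (Ψ z) * cexp (κ * z) / G y - 1‖ ≤ η) :
    ∃ a : ℝ → ℂ, Tr G Ω κ y (fun s => Ψ (a s)) τ ∧ ‖a τ - τ‖ ≤ δ := by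
  obtain ⟨F, hF⟩ : ∃ F : ℂ → ℂ, F = fun z => G (Ψ z) * cexp (κ * z) / G y := ⟨_, rfl⟩
  have hb' : ∀ z ∈ Nb τ ρ, ‖F z - 1‖ ≤ η := by rw [hF]; exact hb
  have dF : DifferentiableOn ℂ F (Nb τ ρ) := by
    rw [hF]
    exact ((hG.comp hΨ mp).mul (by fun_prop)).div_const _
  have sl : ∀ z ∈ Nb τ ρ, F z ∈ slitPlane := fun z hz => by
    simpa using mem_slitPlane_of_norm_lt_one (z := F z - 1) (by linarith [hb' z hz])
  have du : DifferentiableOn ℂ (fun z => log (F z) / κ) (Nb τ ρ) := (dF.clog sl).div_const _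
  have k0 := norm_pos_iff.2 κ0
  obtain ⟨a, a1, a2, a3⟩ := fix hτ δ0 hδ du (fun z hz => by
    have := norm_log_one_add_half_le_self (z := F z - 1) ((hb' z hz).trans η1)
    rw [add_sub_cancel] at this
    rw [norm_div, div_le_iff₀ k0]
    linarith [hb' z hz]) (by simp [hF, Ψ0, G0])
  have key : ∀ z ∈ Nb τ ρ, G (Ψ z) = cexp (-(κ * (z - log (F z) / κ))) * G y := fun z hz => by
    rw [show -(κ * (z - log (F z) / κ)) = log (F z) - κ * z by field_simp; ring, exp_sub,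
      exp_log (slitPlane_ne_zero (sl z hz)), hF]
    have := exp_ne_zero (κ * z)
    field_simp
  refine ⟨a, ⟨hΨ.continuousOn.comp a1 fun s hs => (a3 s hs).2.1, by rw [a2, Ψ0],
    fun s hs => mp (a3 s hs).2.1, fun s hs e => ?_, fun s hs => ?_⟩, (a3 τ ⟨hτ, le_rfl⟩).1⟩
  · obtain ⟨-, m, -, d⟩ := a3 s hs
    have n := (isOpen_Nb τ ρ).mem_nhds m
    have D1 := ((hG _ (mp m)).differentiableAt (hΩ.mem_nhds (mp m))).hasDerivAt.comp (a s)
      ((hΨ _ m).differentiableAt n).hasDerivAt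
    have D2 := ((((hasDerivAt_id (a s)).sub
      ((du _ m).differentiableAt n).hasDerivAt).const_mul κ).neg.cexp).mul_const (G y)
    have := D1.unique (D2.congr_of_eventuallyEq (Filter.eventually_of_mem n key))
    rw [e, zero_mul] at this
    have h := (mul_eq_zero.1 ((mul_eq_zero.1 this.symm).resolve_right G0)).resolve_left
      (exp_ne_zero _)
    rw [neg_eq_zero, mul_eq_zero, sub_eq_zero] at h
    rw [← h.resolve_left κ0] at d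
    norm_num at d
  · obtain ⟨-, m, e, -⟩ := a3 s hs
    rw [key _ m, ← sub_eq_iff_eq_add.2 e]

end Stab

open Stab

theorem stab (h1 : S_TUBE) (h2 : S_FLOW) : S_STAB := by
  rintro l G N T g κ κ0 hC ⟨τ, y⟩ ⟨τ0, g0, p, hp⟩
  simp only at τ0 g0 hp
  obtain ⟨ρ, Ψ, ρ0, dΨ, eΨ, hΨ⟩ := h1 g LH κ y p τ isOpen_LH hC.hg τ0.le hp
  have Ψ0 : Ψ 0 = y := by simpa [hp.zero] using eΨ 0 ⟨le_rfl, τ0.le⟩
  obtain ⟨K, hK⟩ : ∃ K, K = Icc (-(ρ / 2)) (τ + ρ / 2) ×ℂ Icc (-(ρ / 2)) (ρ / 2) := ⟨_, rfl⟩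
  have cK : IsCompact K := hK ▸ isCompact_Icc.reProdIm isCompact_Icc
  have K1 : K ⊆ Nb τ ρ := by
    rw [hK]
    rintro z ⟨⟨k1, k2⟩, k3, k4⟩
    exact ⟨by linarith, by linarith, abs_lt.2 ⟨by linarith, by linarith⟩⟩
  have K2 : Nb τ (ρ / 2) ⊆ K := by
    rw [hK]
    rintro z ⟨k1, k2, k3⟩
    exact ⟨⟨k1.le, k2.le⟩, abs_le.1 k3.le⟩
  have cP : IsCompact (Ψ '' K) := cK.image_of_continuousOn (dΨ.continuousOn.mono K1)
  have sP : Ψ '' K ⊆ LH := by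
    rintro _ ⟨z, hz, rfl⟩
    exact (hΨ z (K1 hz)).1
  have un := Metric.tendstoUniformlyOn_iff.1
    ((tendstoLocallyUniformlyOn_iff_forall_isCompact isOpen_LH).1 hC.lim _ sP cP)
  obtain ⟨R, hR⟩ := cP.isBounded.exists_norm_le
  obtain ⟨B, hB⟩ := cK.exists_bound_of_continuousOn (f := fun z => cexp (κ * z)) (by fun_prop)
  have z0 : (0 : ℂ) ∈ K := K2 (mem_Nb (s := 0) (half_pos ρ0) ⟨le_rfl, τ0.le⟩)
  have B0 : 0 ≤ B := (norm_nonneg _).trans (hB 0 z0)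
  have n0 := norm_pos_iff.2 g0
  have k0 := norm_pos_iff.2 κ0
  have main : ∀ δ, 0 < δ → δ ≤ ρ / 2 / 8 → ∀ᶠ n in l, G n y ≠ 0 ∧
      ∃ a : ℝ → ℂ, Tr (G n) (Bx (N n) (T n)) κ y (fun s => Ψ (a s)) τ ∧ ‖a τ - τ‖ ≤ δ := by
    intro δ δ0 δ1
    obtain ⟨η, η0, η1, η2⟩ : ∃ η : ℝ, 0 < η ∧ η ≤ 1 / 2 ∧ 3 / 2 * η ≤ δ * ‖κ‖ :=
      ⟨min (1 / 2) (δ * ‖κ‖ / 2), lt_min (by norm_num) (by positivity), min_le_left _ _, by
        have := min_le_right (1 / 2) (δ * ‖κ‖ / 2)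
        have : 0 < δ * ‖κ‖ := by positivity
        linarith⟩
    obtain ⟨ε, ε0, hε⟩ : ∃ ε : ℝ, 0 < ε ∧ ε * (B + 1) = η * (‖g y‖ / 2) :=
      ⟨η * (‖g y‖ / 2) / (B + 1), by positivity, by field_simp⟩
    filter_upwards [un ε ε0, hC.hol, hC.hN.eventually_gt_atTop R, hC.hT.eventually_gt_atTop R]
      with n e1 e2 e3 e4
    have ey : ‖g y - G n y‖ ≤ ε := by
      simpa only [dist_eq_norm] using (e1 y ⟨0, z0, Ψ0⟩).le
    have lo : ‖g y‖ / 2 ≤ ‖G n y‖ := by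
      have := norm_sub_norm_le (g y) (G n y)
      have : ε * B + ε ≤ 1 / 2 * (‖g y‖ / 2) := by nlinarith
      have : 0 ≤ ε * B := by positivity
      linarith
    have G0 : 0 < ‖G n y‖ := by linarith
    refine ⟨norm_pos_iff.1 G0, trail κ0 τ0.le δ0 δ1 (isOpen_Bx _ _) e2 (dΨ.mono (K2.trans K1))
      (fun z hz => ?_) Ψ0 (norm_pos_iff.1 G0) η1 η2 fun z hz => ?_⟩
    · have r1 := hR _ ⟨z, K2 hz, rfl⟩
      have r2 := abs_le.1 (abs_im_le_norm (Ψ z))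
      exact ⟨by linarith [abs_re_le_norm (Ψ z)], by linarith, (hΨ z (K1 (K2 hz))).1⟩
    · have v := (hΨ z (K1 (K2 hz))).2.2
      have ez : ‖G n (Ψ z) - g (Ψ z)‖ ≤ ε := by
        simpa only [dist_eq_norm'] using (e1 _ ⟨z, K2 hz, rfl⟩).le
      have e : G n (Ψ z) * cexp (κ * z) - G n y =
          (G n (Ψ z) - g (Ψ z)) * cexp (κ * z) + (g y - G n y) := by
        rw [v, exp_neg]
        have := exp_ne_zero (κ * z)
        field_simp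
        ring
      rw [div_sub_one (norm_pos_iff.1 G0), norm_div, div_le_iff₀ G0, e]
      refine (norm_add_le _ _).trans ?_
      rw [norm_mul]
      have m1 := mul_le_mul ez (hB z (K2 hz)) (norm_nonneg _) ε0.le
      have m2 := mul_le_mul_of_nonneg_left lo η0.le
      linarith
  refine ⟨(main _ (by positivity) le_rfl).mono fun n hn => ⟨τ0, hn.1, _, hn.2.choose_spec.1⟩, ?_⟩
  have hτ : τ ∈ Icc 0 τ := ⟨τ0.le, le_rfl⟩
  rw [(h2 g LH κ isOpen_LH hC.hg κ0).1 y p τ hp τ hτ, ← eΨ τ hτ]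
  have m := mem_Nb ρ0 hτ
  have cΨ := (dΨ.continuousOn _ m).continuousAt ((isOpen_Nb τ ρ).mem_nhds m)
  refine Metric.tendsto_nhds.2 fun ε ε0 => ?_
  obtain ⟨δ, δ0, hδ⟩ := Metric.continuousAt_iff.1 cΨ ε ε0
  filter_upwards [main (min (δ / 2) (ρ / 2 / 8)) (lt_min (by positivity) (by positivity))
    (min_le_right _ _), hC.hol] with n ⟨_, a, a1, a2⟩ e2
  rw [(h2 _ _ κ (isOpen_Bx _ _) e2 κ0).1 y _ τ a1 τ hτ]
  refine hδ ?_
  rw [dist_eq_norm]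
  linarith [min_le_left (δ / 2) (ρ / 2 / 8)]

end Vale.Agent.P097F.T
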