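import Vale.Agent.P097F.T.Defs

/-!
# P097F.T: translation and monotonicity
-/

set_option linter.all false

noncomputable section

namespace Vale.Agent.P097F.T

open Filter Topology Set Metric MeasureTheory Complex
open scoped ENNReal

theorem tra_tr {g : ℂ → ℂ} {Ω Ω' : Set ℂ} {κ y a : ℂ} {p : ℝ → ℂ} {τ : ℝ}
    (hΩ : ∀ y ∈ Ω', y + a ∈ Ω) (h : Tr (fun y => g (y + a)) Ω' κ y p τ) :
    Tr g Ω κ (y + a) (fun s => p s + a) τ :=
  ⟨h.cont.add continuousOn_const, by rw [h.zero], fun s hs => hΩ _ (h.mem s hs),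
    fun s hs => by
      have := h.reg s hs
      rwa [deriv_comp_add_const] at this,
    fun s hs => h.val s hs⟩

theorem tra_en {g : ℂ → ℂ} {Ω Ω' : Set ℂ} {κ : ℂ} {a : ℝ} (hF : Flow g Ω κ)
    (hΩ : ∀ y ∈ Ω', y + a ∈ Ω) (s : ℝ) (y : ℂ) :
    en (fun y => g (y + a)) Ω' κ (s, y) ≤ en g Ω κ (s, y + a) := by
  by_cases hq : (s, y) ∈ Dom (fun y => g (y + a)) Ω' κ
  · obtain ⟨h0, h1, h2⟩ := id hq
    have h3 := tra_tr hΩ h2.choose_spec
    have hq' : (s, y + a) ∈ Dom g Ω κ := ⟨h0, h1, _, h3⟩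
    have e1 : Fl (fun y => g (y + a)) Ω' κ (s, y) = h2.choose s := dif_pos h2
    have e2 : Fl g Ω κ (s, y + a) = h2.choose s + a := hF.1 _ _ _ h3 s ⟨le_of_lt h0, le_rfl⟩
    have e3 : wt (h2.choose s + a) = wt (h2.choose s) := by simp [wt]
    unfold en
    rw [indicator_of_mem hq, indicator_of_mem hq', e1, e2, e3, deriv_comp_add_const]
  · unfold en
    rw [indicator_of_notMem hq]
    exact zero_le

theorem tra : S_TRA := by
  intro g Ω Ω' κ a hF hΩ
  unfold Lam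
  rw [← lintegral_add_right_eq_self
    (fun y : ℂ => ENNReal.ofReal (Real.exp (-|y.re - a|)) * (mu g y * En g Ω κ y)) (a : ℂ)]
  refine lintegral_mono fun y => ?_
  have e1 : mu (fun y => g (y + a)) y = mu g (y + a) := by
    unfold mu
    rw [deriv_comp_add_const]
  have e2 : (y + a).re - a = y.re - 0 := by simp
  have e3 : En (fun y => g (y + a)) Ω' κ y ≤ En g Ω κ (y + a) :=
    lintegral_mono fun s => tra_en hF hΩ s y
  show _ ≤ ENNReal.ofReal (Real.exp (-|(y + a).re - a|)) * (mu g (y + a) * En g Ω κ (y + a))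
  rw [e1, e2]
  gcongr

end Vale.Agent.P097F.T
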