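import Vale.Agent.P097F.T.Defs

/-!
# P097F.T: a descent line extends to complex times (row TUBE)
-/

set_option linter.all false

namespace Vale.Agent.P097F.T

open Filter Topology Set Metric Complex

namespace TubeL

/-- a local extension of the descent line on `U` -/
def Ext (g : ℂ → ℂ) (Ω : Set ℂ) (κ y : ℂ) (p : ℝ → ℂ) (τ : ℝ) (U : Set ℂ) (Ψ : ℂ → ℂ) : Prop :=
  DifferentiableOn ℂ Ψ U ∧ (∀ t ∈ Icc 0 τ, (t : ℂ) ∈ U → Ψ (t : ℝ) = p t) ∧
    ∀ z ∈ U, Ψ z ∈ Ω ∧ deriv g (Ψ z) ≠ 0 ∧ g (Ψ z) = cexp (-(κ * z)) * g y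

variable {g : ℂ → ℂ} {Ω : Set ℂ} {κ y : ℂ} {p : ℝ → ℂ} {τ : ℝ}

theorem Ext.mono {U V : Set ℂ} {Ψ : ℂ → ℂ} (h : Ext g Ω κ y p τ U Ψ) (e : V ⊆ U) :
    Ext g Ω κ y p τ V Ψ :=
  ⟨h.1.mono e, fun t ht k => h.2.1 t ht (e k), fun z hz => h.2.2 z (e hz)⟩

theorem loc (hΩ : IsOpen Ω) (hg : DifferentiableOn ℂ g Ω) (H : Tr g Ω κ y p τ) {s : ℝ}
    (hs : s ∈ Icc 0 τ) : ∃ r > 0, ∃ Ψ, Ext g Ω κ y p τ (ball (s : ℂ) r) Ψ := by
  have n := hΩ.mem_nhds (H.mem s hs)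
  have ag := hg.analyticAt n
  have d0 := H.reg s hs
  have ιa := ag.analyticAt_localInverse d0
  have ιl := ag.hasStrictDerivAt.eventually_left_inverse d0
  have ιr := ag.hasStrictDerivAt.eventually_right_inverse d0
  set ι := ag.hasStrictDerivAt.localInverse _ _ _ d0
  have aE : AnalyticAt ℂ (fun z => cexp (-(κ * z)) * g y) s := by fun_prop
  have aΨ : AnalyticAt ℂ (fun z => ι (cexp (-(κ * z)) * g y)) s :=
    ιa.comp_of_eq aE (H.val s hs).symm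
  have Ψ0 : ι (cexp (-(κ * s)) * g y) = p s := by rw [← H.val s hs]; exact ιl.self_of_nhds
  have t1 : Tendsto (fun z => ι (cexp (-(κ * z)) * g y)) (𝓝 (s : ℂ)) (𝓝 (p s)) :=
    Ψ0 ▸ aΨ.continuousAt
  have t2 : Tendsto (fun z => cexp (-(κ * z)) * g y) (𝓝 (s : ℂ)) (𝓝 (g (p s))) :=
    H.val s hs ▸ aE.continuousAt
  obtain ⟨r₁, r1, h1⟩ := Metric.eventually_nhds_iff.1 (aΨ.eventually_analyticAt.and
    ((t1.eventually n).and ((t1.eventually (ag.deriv.continuousAt.eventually_ne d0)).and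
      (t2.eventually ιr))))
  obtain ⟨r₂, r2, h2⟩ := Metric.eventually_nhds_iff.1
    (eventually_nhdsWithin_iff.1 ((H.cont s hs).tendsto.eventually ιl))
  refine ⟨min r₁ r₂, lt_min r1 r2, fun z => ι (cexp (-(κ * z)) * g y), fun z hz =>
    (h1 (lt_min_iff.1 hz).1).1.differentiableAt.differentiableWithinAt, fun t ht hz => ?_,
    fun z hz => (h1 (lt_min_iff.1 hz).1).2⟩
  show ι _ = _
  rw [← H.val t ht]
  exact h2 ((Complex.isometry_ofReal.dist_eq t s).symm.trans_lt (lt_min_iff.1 hz).2) ht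

theorem agree (hΩ : IsOpen Ω) (hg : DifferentiableOn ℂ g Ω) {U : Set ℂ} (hU : IsOpen U)
    (cU : Convex ℝ U) {Ψ Φ : ℂ → ℂ} (h : Ext g Ω κ y p τ U Ψ) (k : Ext g Ω κ y p τ U Φ) {t : ℝ}
    (ht : t ∈ Icc 0 τ) (tU : (t : ℂ) ∈ U) : EqOn Ψ Φ U := by
  have n := hU.mem_nhds tU
  have ag := hg.analyticAt (hΩ.mem_nhds (h.2.2 t tU).1)
  have ιl := ag.hasStrictDerivAt.eventually_left_inverse (h.2.2 t tU).2.1
  have e : Φ t = Ψ t := by rw [h.2.1 t ht tU, k.2.1 t ht tU]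
  have t1 : Tendsto Ψ (𝓝 (t : ℂ)) (𝓝 (Ψ t)) := h.1.continuousOn.continuousAt n
  have t2 : Tendsto Φ (𝓝 (t : ℂ)) (𝓝 (Ψ t)) := e ▸ k.1.continuousOn.continuousAt n
  refine (h.1.analyticOnNhd hU).eqOn_of_preconnected_of_eventuallyEq (k.1.analyticOnNhd hU)
    cU.isPreconnected tU ?_
  filter_upwards [t1.eventually ιl, t2.eventually ιl, n] with z e1 e2 hz
  rw [← e1, ← e2, (h.2.2 z hz).2.2, (k.2.2 z hz).2.2]

end TubeL

open TubeL in
theorem tube : S_TUBE := by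
  intro g Ω κ y p τ hΩ hg τ0 H
  choose r r0 Ψ hΨ using fun s : Icc (0 : ℝ) τ => loc hΩ hg H s.2
  obtain ⟨δ, δ0, hδ⟩ := lebesgue_number_lemma_of_metric (s := (fun t : ℝ => (t : ℂ)) '' Icc 0 τ)
    (c := fun s : Icc (0 : ℝ) τ => ball ((s : ℝ) : ℂ) (r s))
    (isCompact_Icc.image Complex.continuous_ofReal) (fun _ => isOpen_ball) (by
      rintro _ ⟨t, ht, rfl⟩
      exact mem_iUnion.2 ⟨⟨t, ht⟩, mem_ball_self (r0 _)⟩)
  have ex : ∀ s : Icc (0 : ℝ) τ, ∃ Φ, Ext g Ω κ y p τ (ball ((s : ℝ) : ℂ) δ) Φ := fun s =>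
    let ⟨i, hi⟩ := hδ _ ⟨s, s.2, rfl⟩
    ⟨Ψ i, (hΨ i).mono hi⟩
  choose Φ hΦ using ex
  have ag : ∀ s t : Icc (0 : ℝ) τ, ∀ z ∈ ball ((s : ℝ) : ℂ) δ, z ∈ ball ((t : ℝ) : ℂ) δ →
      Φ s z = Φ t z := fun s t z h1 h2 => by
    have h3 : |(s : ℝ) - t| < 2 * δ := by
      have := dist_triangle_left ((s : ℝ) : ℂ) ((t : ℝ) : ℂ) z
      rw [Complex.dist_eq, ← Complex.ofReal_sub, Complex.norm_real, Real.norm_eq_abs] at this
      linarith [mem_ball.1 h1, mem_ball.1 h2]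
    have h4 := abs_lt.1 h3
    refine agree hΩ hg (isOpen_ball.inter isOpen_ball) ((convex_ball _ _).inter (convex_ball _ _))
      ((hΦ s).mono inter_subset_left) ((hΦ t).mono inter_subset_right) (t := (s + t) / 2)
      ⟨by linarith [s.2.1, t.2.1], by linarith [s.2.2, t.2.2]⟩ ⟨?_, ?_⟩ ⟨h1, h2⟩ <;>
    · rw [mem_ball, Complex.dist_eq, ← Complex.ofReal_sub, Complex.norm_real, Real.norm_eq_abs,
        abs_lt]
      constructor <;> linarith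
  have mem : ∀ z ∈ Nb τ (δ / 2), z ∈ ball ((projIcc 0 τ τ0 z.re : ℝ) : ℂ) δ := fun z hz => by
    obtain ⟨h1, h2, h3⟩ := hz
    have h4 : |z.re - projIcc 0 τ τ0 z.re| < δ / 2 := by
      rw [coe_projIcc, abs_lt]
      rcases le_total τ z.re with e | e <;> rcases le_total 0 z.re with e' | e' <;>
        simp only [min_eq_left, min_eq_right, max_eq_left, max_eq_right, e, e', τ0] <;>
        constructor <;> linarith
    have := Complex.norm_le_abs_re_add_abs_im (z - ((projIcc 0 τ τ0 z.re : ℝ) : ℂ))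
    rw [mem_ball, Complex.dist_eq]
    simp only [Complex.sub_re, Complex.sub_im, Complex.ofReal_re, Complex.ofReal_im, sub_zero]
      at this
    linarith
  refine ⟨δ / 2, fun z => Φ (projIcc 0 τ τ0 z.re) z, half_pos δ0, fun z hz => ?_, fun s hs => ?_,
    fun z hz => (hΦ _).2.2 z (mem z hz)⟩
  · have n := isOpen_ball.mem_nhds (mem z hz)
    refine (((hΦ _).1.differentiableAt n).congr_of_eventuallyEq ?_).differentiableWithinAt
    filter_upwards [n, (isOpen_Nb _ _).mem_nhds hz] with w h1 h2 using ag _ _ w (mem w h2) h1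
  · exact (hΦ _).2.1 s hs (mem _ (mem_Nb (half_pos δ0) hs))

end Vale.Agent.P097F.T
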