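import Vale.Agent.P097F.T.Uniq
import Vale.Agent.P097F.T.Tube
import Vale.Agent.P097F.T.Flow
import Vale.Agent.P097F.T.Meas
import Vale.Agent.P097F.T.Area
import Vale.Agent.P097F.T.Tra
import Vale.Agent.P097F.T.Sel
import Vale.Agent.P097F.T.Stab
import Vale.Agent.P097F.T.Seq
import Vale.Agent.P097F.T.Lsc
import Vale.Agent.P097F.T.Grow
import Vale.Agent.P097F.T.Good
import Vale.Agent.P097F.T.Ray
import Vale.Agent.P097F.T.Dir

/-! Block T closed: selection, lower semicontinuity and good directions, with no hypotheses. -/

namespace Vale.Agent.P097F.T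

theorem flowC : S_FLOW := flow uniq tube

theorem selC : Spec_SEL := sel flowC meas (area meas) tra

theorem lscC : Spec_LSC := lsc flowC meas (stab tube flowC) seq

theorem dirC : Spec_DIR := dir tube (good tube flowC grow) ray crit

end Vale.Agent.P097F.T
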