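import Vale.Agent.P097F.T.Defs

/-!
# P097F.T: uniqueness of lifts
-/

set_option linter.all false

noncomputable section

namespace Vale.Agent.P097F.T

open Filter Topology Set Metric

theorem uniq : S_UNIQ := by
  intro h Ω p q S hΩ hh hS hp hq H ⟨s₀, hs₀, e₀⟩
  haveI : PreconnectedSpace S := Subtype.preconnectedSpace hS
  have cp : Continuous fun s : S => p s := hp.restrict
  have cq : Continuous fun s : S => q s := hq.restrict
  have c : IsClopen {s : S | p s = q s} := by
    refine ⟨isClosed_eq cp cq, isOpen_iff_mem_nhds.2 fun s hs => ?_⟩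
    obtain ⟨m, d, -⟩ := H s s.2
    have a : HasStrictDerivAt h (deriv h (p s)) (p s) :=
      (hh.analyticAt (hΩ.mem_nhds m)).hasStrictDerivAt
    have k := a.eventually_left_inverse d
    have k1 := (cp.tendsto s).eventually k
    have tq : Tendsto (fun s : S => q s) (𝓝 s) (𝓝 (p s)) := by
      rw [show p s = q s from hs]
      exact cq.tendsto s
    have k2 := tq.eventually k
    filter_upwards [k1, k2] with t t1 t2
    show p t = q t
    rw [← t1, (H t t.2).2.2]
    exact t2
  have u := c.eq_univ ⟨⟨s₀, hs₀⟩, e₀⟩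
  intro s hs
  exact (u.symm ▸ mem_univ (⟨s, hs⟩ : S) : (⟨s, hs⟩ : S) ∈ {s : S | p s = q s})

end Vale.Agent.P097F.T
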